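import Crest.Agent.N336.P.Defs
import Crest.Agent.N336.Q.Cond

-- ▼ part N336/P/Sound/Tens
section

/-!
# Row 336, soundness of plans: product vectors along an embedding (helper29)
-/

set_option autoImplicit false
set_option linter.unusedSectionVars false

open Matrix Finset
open scoped Matrix.Norms.L2Operator

namespace Crest.Agent.N336.P.Snd

open Crest.MathPhysics.LatticeSpin Crest.Agent.N336.Q

variable {ι κ μ : Type} [Fintype ι] [DecidableEq ι] [Fintype κ] [DecidableEq κ]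
  [Fintype μ] [DecidableEq μ] {q : ℕ}

/-- `m ⊗ 1` along an embedding, all local spaces `Fin q`. -/
noncomputable def em (e : κ ↪ ι) : N336.Op κ q →⋆ₐ[ℂ] N336.Op ι q := emb (d := fun _ => Fin q) e

/-- support for constant local spaces -/
abbrev Sp (X : Finset ι) (M : N336.Op ι q) : Prop := Supp (d := fun _ => Fin q) X M

/-- agreement outside `X` -/
abbrev Ag (X : Finset ι) (σ τ : ι → Fin q) : Prop := Agree (d := fun _ => Fin q) X σ τ

lemma em_apply (e : κ ↪ ι) (m : N336.Op κ q) (σ τ : ι → Fin q) :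
    em e m σ τ = if Ag (rg e) σ τ then m (fun k => σ (e k)) (fun k => τ (e k)) else 0 :=
  emb_apply (d := fun _ => Fin q) e m σ τ

lemma em_em (e' : μ ↪ κ) (e : κ ↪ ι) (m : N336.Op μ q) :
    em e (em e' m) = em (e'.trans e) m := emb_emb (d := fun _ => Fin q) e' e m

lemma norm_em_le (e : κ ↪ ι) (m : N336.Op κ q) : ‖em e m‖ ≤ ‖m‖ :=
  norm_emb_le (d := fun _ => Fin q) e m

lemma norm_em [NeZero q] (e : κ ↪ ι) (m : N336.Op κ q) : ‖em e m‖ = ‖m‖ :=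
  norm_emb (d := fun _ => Fin q) e m

lemma em_ct (e : κ ↪ ι) (m : N336.Op κ q) : em e mᴴ = (em e m)ᴴ := map_star (em e) m

lemma sp_em (e : κ ↪ ι) (m : N336.Op κ q) : Sp (rg e) (em e m) :=
  supp_emb (d := fun _ => Fin q) e m

lemma Sp.em {Y : Finset κ} (e : κ ↪ ι) {m : N336.Op κ q} (h : Sp Y m) : Sp (Y.map e) (em e m) :=
  Supp.emb (d := fun _ => Fin q) e h

lemma em_congr {Y : Finset κ} {e e' : κ ↪ ι} (he : ∀ k ∈ Y, e k = e' k) {m : N336.Op κ q}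
    (h : Sp Y m) : em e m = em e' m := emb_congr he h

lemma localOp_em (X : Finset ι) (m : Matrix (X → Fin q) (X → Fin q) ℂ) :
    localOp X m = em (sb X) m := localOp_eq X m



lemma ap_le_of_le_one {M : N336.Op ι q} (h : ‖M‖ ≤ 1) (v : N336.Vec ι q) : ‖ap M v‖ ≤ ‖v‖ :=
  (norm_ap_le M v).trans (by nlinarith [norm_nonneg v])

lemma mul_le_one' {M N : N336.Op ι q} (h : ‖M‖ ≤ 1) (h' : ‖N‖ ≤ 1) : ‖M * N‖ ≤ 1 :=
  (norm_mul_le M N).trans (by nlinarith [norm_nonneg M, norm_nonneg N])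

lemma norm_one_le : ‖(1 : N336.Op ι q)‖ ≤ 1 := by
  rw [← norm_ap]
  simp only [ap, map_one]
  exact ContinuousLinearMap.norm_id_le

lemma list_prod_le_one {l : List (N336.Op ι q)} (h : ∀ M ∈ l, ‖M‖ ≤ 1) : ‖l.prod‖ ≤ 1 := by
  induction l with
  | nil => simpa using norm_one_le
  | cons M l ih =>
    rw [List.prod_cons]
    exact mul_le_one' (h M (by simp)) (ih fun N hN => h N (by simp [hN]))

lemma norm_ct (M : N336.Op ι q) : ‖Mᴴ‖ = ‖M‖ := Matrix.l2_opNorm_conjTranspose M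

/-- `W` does not depend on the coordinates in `Y`. -/
def Indep (Y : Finset ι) (W : (ι → Fin q) → ℂ) : Prop := ∀ σ τ, Ag Y σ τ → W σ = W τ

/-- `W` vanishes unless the coordinates in `Y` are zero. -/
def Zr [NeZero q] (Y : Finset ι) (W : (ι → Fin q) → ℂ) : Prop :=
  ∀ σ, W σ ≠ 0 → ∀ r ∈ Y, σ r = 0

lemma Indep.mono {X Y : Finset ι} {W : (ι → Fin q) → ℂ} (h : Indep Y W) (hXY : X ⊆ Y) :
    Indep X W := fun σ τ h' => h σ τ (h'.mono hXY)

lemma Zr.mono [NeZero q] {X Y : Finset ι} {W : (ι → Fin q) → ℂ} (h : Zr Y W) (hXY : X ⊆ Y) :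
    Zr X W := fun σ h' r hr => h σ h' r (hXY hr)

lemma Zr.mul_left [NeZero q] {Y : Finset ι} {W : (ι → Fin q) → ℂ} (h : Zr Y W)
    (f : (ι → Fin q) → ℂ) : Zr Y fun σ => f σ * W σ :=
  fun σ h' => h σ (right_ne_zero_of_mul h')

lemma Zr.ap [NeZero q] {X Y : Finset ι} {M : N336.Op ι q} {v : N336.Vec ι q} (hM : Sp X M)
    (hd : Disjoint X Y) (h : Zr Y v) : Zr Y (Q.ap M v) := by
  intro σ hσ r hr
  rw [ap_apply] at hσ
  obtain ⟨τ, -, hτ⟩ := Finset.exists_ne_zero_of_sum_ne_zero hσ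
  have h1 : Ag X σ τ := by
    by_contra h2
    exact left_ne_zero_of_mul hτ (hM.zero _ _ h2)
  rw [h1 r (Finset.disjoint_right.1 hd hr)]
  exact h τ (right_ne_zero_of_mul hτ) r hr

/-- sum over configurations agreeing outside the range of an embedding -/
lemma sum_agree (e : κ ↪ ι) (σ : ι → Fin q) (F : (ι → Fin q) → ℂ) :
    (∑ τ, if Ag (rg e) σ τ then F τ else 0) =
      ∑ a : κ → Fin q, F ((eqv e fun _ => Fin q).symm (a, off (rg e) σ)) := by
  rw [← (eqv e fun _ => Fin q).symm.sum_comp, Fintype.sum_prod_type]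
  refine Finset.sum_congr rfl fun a _ => ?_
  rw [Finset.sum_eq_single (off (rg e) σ)]
  · rw [if_pos]
    exact off_eq_iff.1 (by rw [off_symm])
  · intro c _ hc
    rw [if_neg]
    intro h
    have h' := off_eq_iff.2 h
    rw [off_symm] at h'
    exact hc h'.symm
  · simp

lemma ap_em_apply (e : κ ↪ ι) (m : N336.Op κ q) (v : N336.Vec ι q) (σ : ι → Fin q) :
    ap (em e m) v σ = ∑ a : κ → Fin q,
      m (fun k => σ (e k)) a * v ((eqv e fun _ => Fin q).symm (a, off (rg e) σ)) := by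
  rw [ap_apply]
  have : ∀ τ, em e m σ τ * v τ =
      if Ag (rg e) σ τ then m (fun k => σ (e k)) (fun k => τ (e k)) * v τ else 0 := by
    intro τ; rw [em_apply]; split_ifs <;> simp
  simp only [this]
  rw [sum_agree e σ fun τ => m (fun k => σ (e k)) (fun k => τ (e k)) * v τ]
  refine Finset.sum_congr rfl fun a _ => ?_
  congr 2
  exact res_symm (d := fun _ => Fin q) e (a, off (rg e) σ)

lemma ag_symm (e : κ ↪ ι) (σ : ι → Fin q) (a : κ → Fin q) :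
    Ag (rg e) σ ((eqv e fun _ => Fin q).symm (a, off (rg e) σ)) :=
  off_eq_iff.1 (by rw [off_symm])

lemma symm_apply_e (e : κ ↪ ι) (p : (κ → Fin q) × Rest (rg e) fun _ => Fin q) (k : κ) :
    (eqv e fun _ => Fin q).symm p (e k) = p.1 k :=
  congrFun (res_symm (d := fun _ => Fin q) e p) k

lemma symm_apply_off (e : κ ↪ ι) (σ : ι → Fin q) (a : κ → Fin q) {r : ι} (hr : r ∉ rg e) :
    (eqv e fun _ => Fin q).symm (a, off (rg e) σ) r = σ r := (ag_symm e σ a r hr).symm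

/-- an operator supported on `X` commutes with multiplication by a function independent of `X` -/
lemma ap_mul_indep {X : Finset ι} {M : N336.Op ι q} (hM : Sp X M) {f : (ι → Fin q) → ℂ}
    (hf : Indep X f) (v : N336.Vec ι q) (σ : ι → Fin q) :
    ap M (WithLp.toLp 2 fun τ => f τ * v τ) σ = f σ * ap M v σ := by
  rw [ap_apply, ap_apply, Finset.mul_sum]
  refine Finset.sum_congr rfl fun τ _ => ?_
  by_cases h : Ag X σ τ
  · rw [hf σ τ h]; simp only; ring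
  · rw [hM.zero _ _ h]; simp

lemma Indep.ap {X Y : Finset ι} {M : N336.Op ι q} (hM : Sp X M) (hd : Disjoint X Y)
    {v : N336.Vec ι q} (h : Indep Y v) : Indep Y (Q.ap M v) := by
  obtain ⟨m, rfl⟩ := hM.exists_lift
  intro σ τ hστ
  have h1 : ∀ σ, Q.ap (lift (d := fun _ => Fin q) X m) v σ = _ := ap_em_apply (sb X) m v
  rw [h1, h1]
  refine Finset.sum_congr rfl fun a _ => ?_
  congr 1
  · congr 1
    funext k
    exact hστ _ (Finset.disjoint_left.1 hd k.2)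
  · refine h _ _ fun r hr => ?_
    by_cases hx : r ∈ rg (sb X)
    · obtain ⟨k, rfl⟩ := mem_rg.1 hx
      rw [symm_apply_e, symm_apply_e]
    · rw [symm_apply_off _ _ _ hx, symm_apply_off _ _ _ hx]
      exact hστ r hr

/-- the product vector `φ ∘ e` times `W` -/
noncomputable def tens (e : κ ↪ ι) (φ : N336.Vec κ q) (W : (ι → Fin q) → ℂ) : N336.Vec ι q :=
  WithLp.toLp 2 fun σ => φ (fun k => σ (e k)) * W σ

lemma tens_apply (e : κ ↪ ι) (φ : N336.Vec κ q) (W : (ι → Fin q) → ℂ) (σ : ι → Fin q) :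
    tens e φ W σ = φ (fun k => σ (e k)) * W σ := rfl

lemma tens_sub (e : κ ↪ ι) (φ ψ : N336.Vec κ q) (W : (ι → Fin q) → ℂ) :
    tens e (φ - ψ) W = tens e φ W - tens e ψ W := by
  ext σ; simp [tens_apply, sub_mul]

lemma ap_em_tens (e : κ ↪ ι) (m : N336.Op κ q) (φ : N336.Vec κ q) {W : (ι → Fin q) → ℂ}
    (hW : Indep (rg e) W) : ap (em e m) (tens e φ W) = tens e (ap m φ) W := by
  ext σ
  rw [ap_em_apply, tens_apply, ap_apply, Finset.sum_mul]
  refine Finset.sum_congr rfl fun a _ => ?_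
  have h1 : (fun k => (eqv e fun _ => Fin q).symm (a, off (rg e) σ) (e k)) = a :=
    funext fun k => symm_apply_e _ _ k
  rw [tens_apply, ← hW _ _ (ag_symm e σ a), mul_assoc, h1]

lemma norm_tens_sq [NeZero q] (e : κ ↪ ι) (φ : N336.Vec κ q) {W : (ι → Fin q) → ℂ}
    (hW : Indep (rg e) W) : ‖tens e φ W‖ ^ 2 =
      ‖φ‖ ^ 2 * ∑ c : Rest (rg e) fun _ => Fin q, ‖W ((eqv e fun _ => Fin q).symm (0, c))‖ ^ 2 := by
  rw [EuclideanSpace.norm_sq_eq, EuclideanSpace.norm_sq_eq, Finset.sum_mul_sum,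
    ← (eqv e fun _ => Fin q).symm.sum_comp, Fintype.sum_prod_type]
  refine Finset.sum_congr rfl fun a _ => Finset.sum_congr rfl fun c _ => ?_
  rw [tens_apply, norm_mul, mul_pow]
  have h1 : (fun k => (eqv e fun _ => Fin q).symm (a, c) (e k)) = a :=
    funext fun k => symm_apply_e _ _ k
  rw [h1, hW _ ((eqv e fun _ => Fin q).symm (0, c)) (off_eq_iff.1 (by rw [off_symm, off_symm]))]

lemma norm_tens [NeZero q] (e : κ ↪ ι) (φ : N336.Vec κ q) {Ω : N336.Vec κ q} (hΩ : ‖Ω‖ = 1)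
    {W : (ι → Fin q) → ℂ} (hW : Indep (rg e) W) : ‖tens e φ W‖ = ‖φ‖ * ‖tens e Ω W‖ := by
  rw [← sq_eq_sq₀ (norm_nonneg _) (by positivity), mul_pow, norm_tens_sq e φ hW,
    norm_tens_sq e Ω hW, hΩ, one_pow, one_mul]

/-- an operator which almost fixes `Ω` almost fixes `Ω ⊗ W` -/
lemma close_tens [NeZero q] (e : κ ↪ ι) {Ω : N336.Vec κ q} (hΩ : ‖Ω‖ = 1) {W : (ι → Fin q) → ℂ}
    (hW : Indep (rg e) W) (hn : ‖tens e Ω W‖ ≤ 1) {G : N336.Op κ q} {ε : ℝ}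
    (h : ‖ap G Ω - Ω‖ ≤ ε) : ‖ap (em e G) (tens e Ω W) - tens e Ω W‖ ≤ ε := by
  rw [ap_em_tens e G Ω hW, ← tens_sub, norm_tens e _ hΩ hW]
  nlinarith [norm_nonneg (ap G Ω - Ω), norm_nonneg (tens e Ω W)]

lemma indep_res {e : κ ↪ ι} {X : Finset ι} (hd : Disjoint X (rg e)) (φ : (κ → Fin q) → ℂ) :
    Indep X fun σ => φ fun k => σ (e k) := by
  intro σ τ h
  exact congrArg φ (funext fun k => h _ (Finset.disjoint_right.1 hd (apply_mem_rg e k)))

/-- an operator away from the range of `e` acts on the second factor -/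
lemma ap_tens {e : κ ↪ ι} {X : Finset ι} {M : N336.Op ι q} (hM : Sp X M) (hd : Disjoint X (rg e))
    (φ : N336.Vec κ q) (w : N336.Vec ι q) : ap M (tens e φ w) = tens e φ (ap M w) := by
  ext σ
  exact ap_mul_indep hM (indep_res hd φ) w σ

/-- the basis vector `c |b⟩` -/
def bv (b : κ → Fin q) (c : ℂ) : (κ → Fin q) → ℂ := Pi.single b c

lemma sum_bv (b : κ → Fin q) (c : ℂ) : ∑ σ, ‖bv b c σ‖ ^ 2 = ‖c‖ ^ 2 := by
  rw [Finset.sum_eq_single b]
  · simp [bv]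
  · intro σ _ h; simp [bv, Pi.single_eq_of_ne h]
  · simp

/-- `|a⟩⟨a'|` -/
def kt (a a' : (κ → Fin q) → ℂ) : N336.Op κ q := vecMulVec a (star a')

lemma kt_apply (a a' : (κ → Fin q) → ℂ) (σ τ : κ → Fin q) : kt a a' σ τ = a σ * star (a' τ) := rfl

lemma kt_ct (a a' : (κ → Fin q) → ℂ) : (kt a a')ᴴ = kt a' a := by
  ext σ τ; simp [kt_apply, mul_comm]

lemma kt_mul (a a' b b' : (κ → Fin q) → ℂ) :
    kt a a' * kt b b' = (∑ τ, star (a' τ) * b τ) • kt a b' := by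
  ext σ τ
  simp only [mul_apply, kt_apply, Matrix.smul_apply, smul_eq_mul, Finset.sum_mul]
  exact Finset.sum_congr rfl fun υ _ => by ring

lemma sum_star_bv (b b' : κ → Fin q) :
    ∑ τ, star (bv b 1 τ) * bv b' 1 τ = if b = b' then 1 else 0 := by
  rw [Finset.sum_eq_single b]
  · by_cases h : b = b'
    · subst h; simp [bv]
    · simp [bv, h]
  · intro σ _ h; simp [bv, Pi.single_eq_of_ne h]
  · simp

lemma sum_star_self (a : (κ → Fin q) → ℂ) :
    ∑ τ, star (a τ) * a τ = ((∑ τ, ‖a τ‖ ^ 2 : ℝ) : ℂ) := by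
  push_cast
  exact Finset.sum_congr rfl fun τ _ => by
    rw [mul_comm]; exact Complex.mul_conj' (a τ)

lemma rk1_eq (A : Finset ι) (a a' : (A → Fin q) → ℂ) : rk1 A a a' = em (sb A) (kt a a') :=
  localOp_em A _

lemma norm_kt_le {a a' : (κ → Fin q) → ℂ} (ha : ∑ σ, ‖a σ‖ ^ 2 ≤ 1) (ha' : ∑ σ, ‖a' σ‖ ^ 2 ≤ 1) :
    ‖kt a a'‖ ≤ 1 := by
  have h := norm_kb_le (WithLp.toLp 2 a : Q.Vec (κ → Fin q)) (WithLp.toLp 2 a')
  have h1 : ‖(WithLp.toLp 2 a : Q.Vec (κ → Fin q))‖ ≤ 1 := by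
    rw [← sq_le_one_iff₀ (norm_nonneg _), EuclideanSpace.norm_sq_eq]; exact ha
  have h2 : ‖(WithLp.toLp 2 a' : Q.Vec (κ → Fin q))‖ ≤ 1 := by
    rw [← sq_le_one_iff₀ (norm_nonneg _), EuclideanSpace.norm_sq_eq]; exact ha'
  exact h.trans (by nlinarith [norm_nonneg (WithLp.toLp 2 a : Q.Vec (κ → Fin q))])

/-- `|a⟩⟨0|` on zero registers -/
lemma ap_em_kt_zero [NeZero q] (e : κ ↪ ι) (a : (κ → Fin q) → ℂ) (v : N336.Vec ι q)
    (σ : ι → Fin q) : ap (em e (kt a (bv 0 1))) v σ =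
      a (fun k => σ (e k)) * v ((eqv e fun _ => Fin q).symm (0, off (rg e) σ)) := by
  rw [ap_em_apply, Finset.sum_eq_single 0]
  · simp [kt_apply, bv]
  · intro b _ hb; simp [kt_apply, bv, Pi.single_eq_of_ne hb]
  · simp

lemma Zr.fix [NeZero q] {e : κ ↪ ι} {v : N336.Vec ι q} (h : Zr (rg e) v) :
    Q.ap (em e (kt (bv 0 1) (bv 0 1))) v = v := by
  ext σ
  rw [ap_em_kt_zero]
  by_cases h0 : (fun k => σ (e k)) = 0
  · rw [h0]
    have : (eqv e fun _ => Fin q).symm (0, off (rg e) σ) = σ := by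
      rw [Equiv.symm_apply_eq, eqv_apply, ← h0]; rfl
    simp [bv, this]
  · rw [bv, Pi.single_eq_of_ne h0, zero_mul]
    by_contra h1
    exact h0 (funext fun k => h σ (Ne.symm h1) _ (apply_mem_rg e k))

end Crest.Agent.N336.P.Snd
end

-- ▼ part N336/P/Sound/Own
section

/-!
# Row 336, soundness of plans: choice of the intermediate owners, families of branches (helper29)
-/

set_option autoImplicit false
set_option linter.unusedSectionVars false

open Matrix Finset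
open scoped Matrix.Norms.L2Operator

namespace Crest.Agent.N336.P.Snd

open Crest.MathPhysics.LatticeSpin Crest.Agent.N336.Q

variable {Rg Pa κ : Type} [Fintype Rg] [DecidableEq Rg] [DecidableEq Pa] [Fintype κ]
  [DecidableEq κ] {q : ℕ}

/-- A step without output owners: allowed owners before (`In`) and after (`Out`). -/
structure PS (Rg Pa : Type) [Fintype Rg] [DecidableEq Rg] [DecidableEq Pa] (q : ℕ) where
  A : Finset Rg
  M : Matrix (↥A → Fin q) (↥A → Fin q) ℂ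
  In : Pa → Prop
  Out : Pa → Prop
  ok : ∀ o o' : Rg → Pa, (∀ r ∈ A, In (o r)) → (∀ r ∈ A, Out (o' r)) →
    (opN M ≤ 1 ∧ ∃ p, ∀ r ∈ A, o r = p ∧ o' r = p) ∨
      ∃ a a' : (↥A → Fin q) → ℂ, M = Matrix.vecMulVec a (star a') ∧
        ∑ σ, ‖a σ‖ ^ 2 ≤ 1 ∧ ∑ σ, ‖a' σ‖ ^ 2 ≤ 1 ∧ PB o A a' ∧ PB o' A a

/-- operator of a pre-step -/
noncomputable def PS.op (s : PS Rg Pa q) : N336.Op Rg q := localOp s.A s.M

/-- operator of a list of pre-steps (the head acts first) -/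
noncomputable def opP : List (PS Rg Pa q) → N336.Op Rg q
  | [] => 1
  | s :: l => opP l * s.op

lemma opP_append (l l' : List (PS Rg Pa q)) : opP (l ++ l') = opP l' * opP l := by
  induction l with
  | nil => simp [opP]
  | cons s l ih => simp [opP, ih, Matrix.mul_assoc]

/-- `p` is an admissible owner of `r` before the steps `l` leading to `o'`. -/
def req (I : Finset Pa) (o' : Rg → Pa) (r : Rg) (p : Pa) : List (PS Rg Pa q) → Prop
  | [] => p = o' r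
  | s :: l => if r ∈ s.A then s.In p ∧ p ∈ I else req I o' r p l

/-- every step has an admissible output owner -/
def Good (I : Finset Pa) (o' : Rg → Pa) : List (PS Rg Pa q) → Prop
  | [] => True
  | s :: l => (∀ r ∈ s.A, ∃ p, s.Out p ∧ p ∈ I ∧ req I o' r p l) ∧ Good I o' l

/-- `l` can be realised by a valid chain -/
def Feas (I : Finset Pa) (o o' : Rg → Pa) (l : List (PS Rg Pa q)) : Prop :=
  ∃ l' : List (Step Rg Pa q), Chain I o l' o' ∧ opOf l' = opP l ∧ l'.length = l.length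

theorem own {I : Finset Pa} {o' : Rg → Pa} {l : List (PS Rg Pa q)} (hg : Good I o' l)
    {o : Rg → Pa} (hr : ∀ r, req I o' r (o r) l) : Feas I o o' l := by
  induction l generalizing o with
  | nil => exact ⟨[], funext hr, rfl, rfl⟩
  | cons s l ih =>
    obtain ⟨h1, h2⟩ := hg
    choose f hf using h1
    let out : Rg → Pa := fun r => if h : r ∈ s.A then f r h else o r
    have hin : ∀ r ∈ s.A, s.In (o r) ∧ o r ∈ I := fun r h => by
      have := hr r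
      rwa [req, if_pos h] at this
    have hout : ∀ r (h : r ∈ s.A), out r = f r h := fun r h => dif_pos h
    have hr' : ∀ r, req I o' r (out r) l := fun r => by
      by_cases h : r ∈ s.A
      · rw [hout r h]; exact (hf r h).2.2
      · have := hr r
        rw [req, if_neg h] at this
        have h3 : out r = o r := dif_neg h
        rwa [h3]
    obtain ⟨l', h3, h4, h5⟩ := ih h2 hr'
    refine ⟨⟨s.A, s.M, out⟩ :: l', ⟨⟨fun r h => dif_neg h, fun r h => ⟨(hin r h).2, ?_⟩, ?_⟩, h3⟩,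
      ?_, by simp [h5]⟩
    · change out r ∈ I
      rw [hout r h]; exact (hf r h).2.1
    · exact s.ok o out (fun r h => (hin r h).1) fun r h => by rw [hout r h]; exact (hf r h).1
    · rw [opOf, opP, h4]; rfl

lemma req_of {I : Finset Pa} {o' : Rg → Pa} {r : Rg} (Q : Pa → Prop) (l l' : List (PS Rg Pa q))
    (h1 : ∀ s ∈ l, r ∈ s.A → ∃ p, Q p ∧ s.In p ∧ p ∈ I)
    (h2 : (∀ s ∈ l, r ∉ s.A) → ∃ p, Q p ∧ req I o' r p l') :
    ∃ p, Q p ∧ req I o' r p (l ++ l') := by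
  induction l with
  | nil => exact h2 (by simp)
  | cons s l ih =>
    by_cases h : r ∈ s.A
    · obtain ⟨p, hp⟩ := h1 s (by simp) h
      exact ⟨p, hp.1, by rw [List.cons_append, req, if_pos h]; exact hp.2⟩
    · obtain ⟨p, hp⟩ := ih (fun s' hs' => h1 s' (by simp [hs'])) fun h3 => h2 (by
        intro s' hs'
        rcases List.mem_cons.1 hs' with rfl | hs'
        · exact h
        · exact h3 s' hs')
      exact ⟨p, hp.1, by rw [List.cons_append, req, if_neg h]; exact hp.2⟩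

lemma req_of' {I : Finset Pa} {o' : Rg → Pa} {r : Rg} (Q : Pa → Prop) (l : List (PS Rg Pa q))
    (h1 : ∀ s ∈ l, r ∈ s.A → ∃ p, Q p ∧ s.In p ∧ p ∈ I)
    (h2 : (∀ s ∈ l, r ∉ s.A) → Q (o' r)) : ∃ p, Q p ∧ req I o' r p l := by
  have := req_of (I := I) (o' := o') Q l [] h1 fun h => ⟨_, h2 h, rfl⟩
  rwa [List.append_nil] at this

lemma good_append {I : Finset Pa} {o' : Rg → Pa} {l l' : List (PS Rg Pa q)}
    (h1 : l.Pairwise fun s s' => ∀ r ∈ s.A, r ∈ s'.A → ∃ p, (s.Out p ∧ p ∈ I) ∧ s'.In p ∧ p ∈ I)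
    (h2 : ∀ s ∈ l, ∀ r ∈ s.A, ∃ p, (s.Out p ∧ p ∈ I) ∧ req I o' r p l') (h3 : Good I o' l') :
    Good I o' (l ++ l') := by
  induction l with
  | nil => exact h3
  | cons s l ih =>
    rw [List.pairwise_cons] at h1
    refine ⟨fun r hr => ?_, ih h1.2 fun s' hs' => h2 s' (by simp [hs'])⟩
    obtain ⟨p, hp⟩ := req_of (I := I) (o' := o') (fun p => s.Out p ∧ p ∈ I) l l'
      (fun s' hs' hr' => h1.1 s' hs' r hr hr') fun _ => h2 s (by simp) r hr
    exact ⟨p, hp.1.1, hp.1.2, hp.2⟩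

/-! ### constructors of pre-steps -/

/-- corestriction of an embedding to its range -/
def cor (e : κ ↪ Rg) : κ ↪ ↥(rg e) :=
  ⟨fun k => ⟨e k, apply_mem_rg e k⟩, fun _ _ h => e.injective (congrArg Subtype.val h)⟩


lemma cor_surj (e : κ ↪ Rg) : Function.Surjective (cor e) := by
  rintro ⟨r, hr⟩
  obtain ⟨k, rfl⟩ := mem_rg.1 hr
  exact ⟨k, rfl⟩

/-- configurations on the range -/
noncomputable def corE (e : κ ↪ Rg) : (↥(rg e) → Fin q) ≃ (κ → Fin q) :=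
  Equiv.arrowCongr (Equiv.ofBijective (cor e) ⟨(cor e).injective, cor_surj e⟩).symm (Equiv.refl _)


lemma em_cor_kt (e : κ ↪ Rg) (a a' : (κ → Fin q) → ℂ) :
    em (cor e) (kt a a') = vecMulVec (a ∘ corE e) (star (a' ∘ corE e)) := by
  ext σ τ
  rw [em_apply, if_pos]
  · rfl
  · intro r hr
    obtain ⟨k, rfl⟩ := cor_surj e r
    exact absurd (apply_mem_rg _ k) hr

/-- `a` is admissible when all owners satisfy `P` -/
def Adm (P : Pa → Prop) (a : (κ → Fin q) → ℂ) : Prop :=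
  (∃ P' : Pa × Pa, ∀ p, P p → Mem p P') ∨ ∃ b c, a = bv b c

lemma Adm.pb {P : Pa → Prop} {a : (κ → Fin q) → ℂ} (h : Adm P a) (e : κ ↪ Rg) {o : Rg → Pa}
    (ho : ∀ r ∈ rg e, P (o r)) : PB o (rg e) (a ∘ corE e) := by
  rcases h with ⟨P', h⟩ | ⟨b, c, rfl⟩
  · exact Or.inl ⟨P'.1, P'.2, fun r hr => h _ (ho r hr)⟩
  · refine Or.inr ⟨(corE e).symm b, c, funext fun σ => ?_⟩
    by_cases h : σ = (corE e).symm b
    · subst h; simp [bv]
    · have h' : corE e σ ≠ b := fun h' => h (by rw [← h']; simp)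
      simp [bv, Pi.single_eq_of_ne h, Pi.single_eq_of_ne h']

/-- rank one pre-step `|a⟩⟨a'|` along `e` -/
noncomputable def PS.rk (e : κ ↪ Rg) (a a' : (κ → Fin q) → ℂ) (In Out : Pa → Prop)
    (ha : ∑ σ, ‖a σ‖ ^ 2 ≤ 1) (ha' : ∑ σ, ‖a' σ‖ ^ 2 ≤ 1) (hIn : Adm In a') (hOut : Adm Out a) :
    PS Rg Pa q where
  A := rg e
  M := em (cor e) (kt a a')
  In := In
  Out := Out
  ok o o' h h' := Or.inr ⟨a ∘ corE e, a' ∘ corE e, em_cor_kt e a a',
    by rw [← (corE e).sum_comp] at ha; exact ha, by rw [← (corE e).sum_comp] at ha'; exact ha',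
    hIn.pb e h, hOut.pb e h'⟩

lemma PS.rk_op (e : κ ↪ Rg) (a a' : (κ → Fin q) → ℂ) (In Out : Pa → Prop) (ha ha' hIn hOut) :
    (PS.rk e a a' In Out ha ha' hIn hOut).op = em e (kt a a') := by
  rw [PS.op, localOp_em]
  exact em_em _ _ _

/-- private contraction along `e` -/
noncomputable def PS.pv (e : κ ↪ Rg) (U : N336.Op κ q) (u : Pa) (hU : ‖U‖ ≤ 1) : PS Rg Pa q where
  A := rg e
  M := em (cor e) U
  In := fun p => p = u
  Out := fun p => p = u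
  ok _ _ h h' := Or.inl ⟨(norm_em_le _ _).trans hU, u, fun r hr => ⟨h r hr, h' r hr⟩⟩

lemma PS.pv_op (e : κ ↪ Rg) (U : N336.Op κ q) (u : Pa) (hU) :
    (PS.pv e U u hU).op = em e U := by
  rw [PS.op, localOp_em]
  exact em_em _ _ _

/-! ### families of branches -/

/-- operator of a family of branches -/
noncomputable def opF (F : List (List (PS Rg Pa q))) : N336.Op Rg q := (F.map opP).sum

/-- first a branch of `F`, then a branch of `G` -/
def sq2 (F G : List (List (PS Rg Pa q))) : List (List (PS Rg Pa q)) :=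
  F.flatMap fun b => G.map fun b' => b ++ b'

lemma opF_sq2 (F G : List (List (PS Rg Pa q))) : opF (sq2 F G) = opF G * opF F := by
  induction F with
  | nil => simp [opF, sq2]
  | cons b F ih =>
    have h1 : sq2 (b :: F) G = (G.map fun b' => b ++ b') ++ sq2 F G := by simp [sq2]
    have h2 : opF (G.map fun b' => b ++ b') = opF G * opP b := by
      rw [opF, opF, List.map_map, ← List.sum_map_mul_right]
      congr 1
      exact List.map_congr_left fun b' _ => opP_append b b'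
    rw [h1, opF, List.map_append, List.sum_append, ← opF, ← opF, ih, h2, opF, opF, opF,
      List.map_cons, List.sum_cons, Matrix.mul_add]

lemma length_sq2 (F G : List (List (PS Rg Pa q))) : (sq2 F G).length = F.length * G.length := by
  induction F with
  | nil => simp [sq2]
  | cons b F ih =>
    have h1 : sq2 (b :: F) G = (G.map fun b' => b ++ b') ++ sq2 F G := by simp [sq2]
    rw [h1, List.length_append, ih, List.length_map, List.length_cons]; ring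

lemma mem_sq2 {F G : List (List (PS Rg Pa q))} {b : List (PS Rg Pa q)} :
    b ∈ sq2 F G ↔ ∃ b₁ ∈ F, ∃ b₂ ∈ G, b = b₁ ++ b₂ := by
  simp [sq2, eq_comm]

/-- the layers `L x`, `x ∈ l`, one after the other -/
def sqA {X : Type} (L : X → List (List (PS Rg Pa q))) : List X → List (List (PS Rg Pa q))
  | [] => [[]]
  | x :: l => sq2 (L x) (sqA L l)

lemma opF_sqA {X : Type} (L : X → List (List (PS Rg Pa q))) (l : List X) :
    opF (sqA L l) = (l.map fun x => opF (L x)).reverse.prod := by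
  induction l with
  | nil => simp [sqA, opF, opP]
  | cons x l ih => simp [sqA, opF_sq2, ih]

lemma length_sqA {X : Type} (L : X → List (List (PS Rg Pa q))) (l : List X) {B : ℕ}
    (h : ∀ x ∈ l, 1 ≤ (L x).length ∧ (L x).length ≤ B) :
    1 ≤ (sqA L l).length ∧ (sqA L l).length ≤ B ^ l.length := by
  induction l with
  | nil => simp [sqA]
  | cons x l ih =>
    obtain ⟨h1, h2⟩ := ih fun y hy => h y (by simp [hy])
    obtain ⟨h3, h4⟩ := h x (by simp)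
    rw [sqA, length_sq2, List.length_cons, pow_succ']
    exact ⟨Nat.mul_le_mul h3 h1, Nat.mul_le_mul h4 h2⟩

/-- facts on the branches of a sequence of layers -/
lemma sqA_spec {X : Type} (L : X → List (List (PS Rg Pa q))) (R : PS Rg Pa q → PS Rg Pa q → Prop)
    (m : ℕ) (l : List X) (h1 : ∀ x ∈ l, ∀ b ∈ L x, b.length ≤ m ∧ b.Pairwise R)
    (h2 : l.Pairwise fun x y => ∀ b ∈ L x, ∀ b' ∈ L y, ∀ s ∈ b, ∀ s' ∈ b', R s s') :
    ∀ b ∈ sqA L l, b.length ≤ m * l.length ∧ b.Pairwise R ∧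
      (∀ s ∈ b, ∃ x ∈ l, ∃ b' ∈ L x, s ∈ b') ∧ ∀ x ∈ l, ∃ b' ∈ L x, b' ⊆ b := by
  induction l with
  | nil => simp [sqA]
  | cons x l ih =>
    intro b hb
    rw [List.pairwise_cons] at h2
    obtain ⟨b₁, hb₁, b₂, hb₂, rfl⟩ := mem_sq2.1 hb
    obtain ⟨h3, h4, h5, h6⟩ := ih (fun y hy => h1 y (by simp [hy])) h2.2 b₂ hb₂
    obtain ⟨h7, h8⟩ := h1 x (by simp) b₁ hb₁
    refine ⟨?_, ?_, ?_, ?_⟩
    · rw [List.length_append, List.length_cons]; nlinarith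
    · refine List.pairwise_append.2 ⟨h8, h4, fun s hs s' hs' => ?_⟩
      obtain ⟨y, hy, b', hb', hs''⟩ := h5 s' hs'
      exact h2.1 y hy b₁ hb₁ b' hb' s hs s' hs''
    · intro s hs
      rcases List.mem_append.1 hs with hs | hs
      · exact ⟨x, by simp, b₁, hb₁, hs⟩
      · obtain ⟨y, hy, h⟩ := h5 s hs
        exact ⟨y, by simp [hy], h⟩
    · intro y hy
      rcases List.mem_cons.1 hy with rfl | hy
      · exact ⟨b₁, hb₁, List.subset_append_left _ _⟩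
      · obtain ⟨b', hb', h⟩ := h6 y hy
        exact ⟨b', hb', List.Subset.trans h (List.subset_append_right _ _)⟩

lemma opF_ofFn {m : ℕ} (f : Fin m → List (PS Rg Pa q)) : opF (List.ofFn f) = ∑ i, opP (f i) := by
  rw [opF, List.map_ofFn, List.sum_ofFn]; rfl

lemma opF_toList {X : Type} (S : Finset X) (f : X → List (PS Rg Pa q)) :
    opF (S.toList.map f) = ∑ x ∈ S, opP (f x) := by
  rw [opF, List.map_map, Finset.sum_map_toList]; rfl

/-- a family of feasible branches is a valid gate -/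
theorem exists_gate {I : Finset Pa} {o o' : Rg → Pa} {B ℓ : ℕ} (F : List (List (PS Rg Pa q)))
    (h1 : 1 ≤ F.length) (h2 : F.length ≤ B) (h3 : ∀ b ∈ F, b.length ≤ ℓ ∧ Feas I o o' b)
    (h4 : ‖opF F‖ ≤ 1) : ∃ g : Gate Rg Pa q, g.I = I ∧ g.Valid B ℓ o o' ∧ g.op = opF F := by
  have h5 : ∀ β : Fin F.length, ∃ l' : List (Step Rg Pa q),
      Chain I o l' o' ∧ opOf l' = opP (F.get β) ∧ l'.length = (F.get β).length :=
    fun β => (h3 _ (List.get_mem F β)).2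
  choose br hbr using h5
  have h6 : (⟨I, F.length, br⟩ : Gate Rg Pa q).op = opF F := by
    rw [Gate.op]
    simp only [fun β => (hbr β).2.1]
    conv_rhs => rw [← List.ofFn_get F, opF_ofFn]
  refine ⟨⟨I, F.length, br⟩, rfl, ⟨h1, h2, fun β => ⟨?_, (hbr β).1⟩, ?_⟩, h6⟩
  · change (br β).length ≤ ℓ
    rw [(hbr β).2.2]; exact (h3 _ (List.get_mem F β)).1
  · rw [h6]; exact h4

end Crest.Agent.N336.P.Snd
private theorem rz_e1537f7097 : type_of% @_root_.Crest.Agent.N336.P.Snd.opP.eq_def := @_root_.Crest.Agent.N336.P.Snd.opP.eq_def -- L35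
private theorem rz_618be7fe90 : type_of% @_root_.Crest.Agent.N336.P.Snd.opP.eq_1 := @_root_.Crest.Agent.N336.P.Snd.opP.eq_1 -- L35
private theorem rz_5519ca5264 : type_of% @_root_.Crest.Agent.N336.P.Snd.req.eq_def := @_root_.Crest.Agent.N336.P.Snd.req.eq_def -- L45
private theorem rz_7685d22787 : type_of% @_root_.Crest.Agent.N336.P.Snd.req.eq_1 := @_root_.Crest.Agent.N336.P.Snd.req.eq_1 -- L45
private theorem rz_94d7f94fda : type_of% @_root_.Crest.Agent.N336.P.Snd.sqA.eq_def := @_root_.Crest.Agent.N336.P.Snd.sqA.eq_def -- L226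
private theorem rz_388ee24944 : type_of% @_root_.Crest.Agent.N336.P.Snd.sqA.eq_1 := @_root_.Crest.Agent.N336.P.Snd.sqA.eq_1 -- L226
end

-- ▼ part N336/P/Sound/Rec
section

/-!
# Row 336, soundness of plans: encoders of holes (helper29)
-/

set_option autoImplicit false
set_option linter.unusedSectionVars false

open Matrix Finset
open scoped Matrix.Norms.L2Operator

namespace Crest.Agent.N336.P.Snd

open Crest.MathPhysics.LatticeSpin Crest.Agent.N336.Q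

variable {Λ Rg : Type} [Fintype Λ] [DecidableEq Λ] [Fintype Rg] [DecidableEq Rg] {q nt : ℕ}

lemma norm_le_one_of_proj {G : N336.Op Rg q} (h1 : Gᴴ = G) (h2 : G * G = G) : ‖G‖ ≤ 1 := by
  have h := Matrix.l2_opNorm_conjTranspose_mul_self G
  rw [h1, h2] at h
  by_contra h3
  nlinarith [norm_nonneg G, not_le.1 h3]

lemma norm_le_one_of_ct {E : N336.Op Rg q} (h : ‖Eᴴ * E‖ ≤ 1) : ‖E‖ ≤ 1 := by
  rw [Matrix.l2_opNorm_conjTranspose_mul_self] at h
  by_contra h3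
  nlinarith [norm_nonneg E, not_le.1 h3]

lemma close_prod {l : List (N336.Op Rg q)} {y : N336.Vec Rg q} {ε : ℝ} (h1 : ∀ M ∈ l, ‖M‖ ≤ 1)
    (h2 : ∀ M ∈ l, ‖ap M y - y‖ ≤ ε) : ‖ap l.prod y - y‖ ≤ l.length * ε := by
  induction l with
  | nil => simp
  | cons M l ih =>
    have h3 := ih (fun N hN => h1 N (by simp [hN])) fun N hN => h2 N (by simp [hN])
    have h4 : ap (M * l.prod) y - y = ap M (ap l.prod y - y) + (ap M y - y) := by
      rw [ap_mul, map_sub]; abel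
    rw [List.prod_cons, h4, List.length_cons]
    push_cast
    linarith [norm_add_le (ap M (ap l.prod y - y)) (ap M y - y), h2 M (by simp),
      ap_le_of_le_one (h1 M (by simp)) (ap l.prod y - y)]

lemma close_ct_prod {l : List (N336.Op Rg q)} {y : N336.Vec Rg q} {ε : ℝ} (h1 : ∀ M ∈ l, ‖M‖ ≤ 1)
    (h2 : l.Pairwise fun M N => Commute (Mᴴ * M) N) (h3 : ∀ M ∈ l, ‖ap (Mᴴ * M) y - y‖ ≤ ε) :
    ‖ap (l.prodᴴ * l.prod) y - y‖ ≤ l.length * ε := by
  induction l with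
  | nil => simp
  | cons M l ih =>
    rw [List.pairwise_cons] at h2
    have h4 := ih (fun N hN => h1 N (by simp [hN])) h2.2 fun N hN => h3 N (by simp [hN])
    have h5 : Commute (Mᴴ * M) l.prod := Commute.list_prod_right _ _ h2.1
    have h6 : ‖l.prod‖ ≤ 1 := list_prod_le_one fun N hN => h1 N (by simp [hN])
    have h7 : ap ((M * l.prod)ᴴ * (M * l.prod)) y - y =
        ap (l.prodᴴ * l.prod) (ap (Mᴴ * M) y - y) + (ap (l.prodᴴ * l.prod) y - y) := by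
      have : (M * l.prod)ᴴ * (M * l.prod) = l.prodᴴ * l.prod * (Mᴴ * M) := by
        rw [conjTranspose_mul, Matrix.mul_assoc, ← Matrix.mul_assoc Mᴴ, h5.eq, Matrix.mul_assoc]
      rw [this, ap_mul _ (Mᴴ * M), map_sub]; abel
    have h8 : ‖l.prodᴴ * l.prod‖ ≤ 1 := mul_le_one' (by rwa [norm_ct]) h6
    rw [List.prod_cons, h7, List.length_cons]
    push_cast
    linarith [norm_add_le (ap (l.prodᴴ * l.prod) (ap (Mᴴ * M) y - y))
      (ap (l.prodᴴ * l.prod) y - y), h3 M (by simp), ap_le_of_le_one h8 (ap (Mᴴ * M) y - y)]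

/-- product over a finite set in some order -/
noncomputable def prodF {X : Type} (S : Finset X) (f : X → N336.Op Rg q) : N336.Op Rg q :=
  (S.toList.map f).prod

section prodF

variable {X : Type} [DecidableEq X] {S T : Finset X} {f g : X → N336.Op Rg q}

@[simp] lemma prodF_empty (f : X → N336.Op Rg q) : prodF ∅ f = 1 := by simp [prodF]

@[simp] lemma prodF_singleton (x : X) (f : X → N336.Op Rg q) : prodF {x} f = f x := by
  simp [prodF]

lemma prodF_congr (h : ∀ x ∈ S, f x = g x) : prodF S f = prodF S g := by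
  rw [prodF, prodF, List.map_congr_left fun x hx => h x (Finset.mem_toList.1 hx)]

lemma pairwise_toList {R : X → X → Prop} (h : ∀ x ∈ S, ∀ y ∈ S, x ≠ y → R x y) :
    S.toList.Pairwise R :=
  (Finset.nodup_toList S).imp_of_mem fun hx hy hne =>
    h _ (Finset.mem_toList.1 hx) _ (Finset.mem_toList.1 hy) hne

lemma prodF_union (hd : Disjoint S T)
    (h : ∀ x ∈ S ∪ T, ∀ y ∈ S ∪ T, x ≠ y → Commute (f x) (f y)) :
    prodF (S ∪ T) f = prodF S f * prodF T f := by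
  rw [prodF, prodF, prodF, ← List.prod_append, ← List.map_append]
  refine List.Perm.prod_eq' (List.Perm.map f ?_) (List.pairwise_map.2 (pairwise_toList h))
  refine (List.perm_ext_iff_of_nodup (Finset.nodup_toList _) ?_).2 (by simp)
  refine List.nodup_append.2 ⟨Finset.nodup_toList _, Finset.nodup_toList _, ?_⟩
  intro a ha b hb hab
  subst hab
  exact Finset.disjoint_left.1 hd (Finset.mem_toList.1 ha) (Finset.mem_toList.1 hb)

lemma norm_prodF_le (h : ∀ x ∈ S, ‖f x‖ ≤ 1) : ‖prodF S f‖ ≤ 1 :=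
  list_prod_le_one fun M hM => by
    obtain ⟨x, hx, rfl⟩ := List.mem_map.1 hM
    exact h x (Finset.mem_toList.1 hx)

lemma sp_prodF {Y : Finset Rg} (h : ∀ x ∈ S, Sp Y (f x)) : Sp Y (prodF S f) :=
  Supp.list_prod fun M hM => by
    obtain ⟨x, hx, rfl⟩ := List.mem_map.1 hM
    exact h x (Finset.mem_toList.1 hx)


lemma close_prodF {y : N336.Vec Rg q} {ε : ℝ} (h1 : ∀ x ∈ S, ‖f x‖ ≤ 1)
    (h2 : ∀ x ∈ S, ∀ x' ∈ S, x ≠ x' → Commute ((f x)ᴴ * f x) (f x'))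
    (h3 : ∀ x ∈ S, ‖ap ((f x)ᴴ * f x) y - y‖ ≤ ε) :
    ‖ap ((prodF S f)ᴴ * prodF S f) y - y‖ ≤ S.card * ε := by
  have := close_ct_prod (l := S.toList.map f) (y := y) (ε := ε)
    (fun M hM => by
      obtain ⟨x, hx, rfl⟩ := List.mem_map.1 hM
      exact h1 x (Finset.mem_toList.1 hx))
    (List.pairwise_map.2 (pairwise_toList h2))
    (fun M hM => by
      obtain ⟨x, hx, rfl⟩ := List.mem_map.1 hM
      exact h3 x (Finset.mem_toList.1 hx))
  rwa [List.length_map, Finset.length_toList] at this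

end prodF

/-- A patch family. -/
structure Fm (Λ : Type) (q : ℕ) where
  nb : ℕ
  A : Fin nb → Finset Λ
  a : ∀ α, (↥(A α) → Fin q) → ℂ

/-- The projector of a family. -/
noncomputable def Fm.G (R : Fm Λ q) : N336.Op Λ q := ∑ α, rk1 (R.A α) (R.a α) (R.a α)

/-- The family is a patch family between `I` and `O`. -/
structure Fm.OK (R : Fm Λ q) (Ω : N336.Vec Λ q) (B : ℕ) (ε : ℝ) (I O : Finset Λ) : Prop where
  nb_le : R.nb ≤ B
  sub : ∀ α, I ⊆ R.A α ∧ R.A α ⊆ O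
  nrm : ∀ α, ∑ σ, ‖R.a α σ‖ ^ 2 = 1
  orth : ∀ α β, α ≠ β → rk1 (R.A α) (R.a α) (R.a α) * rk1 (R.A β) (R.a β) (R.a β) = 0
  close : ‖ap R.G Ω - Ω‖ ≤ ε

lemma exists_fm {Ω : N336.Vec Λ q} {B : ℕ} {ε : ℝ} {I O : Finset Λ} (h : PatchFam Ω B ε I O) :
    ∃ R : Fm Λ q, R.OK Ω B ε I O := by
  obtain ⟨nb, A, a, h1, h2, h3, h4, h5⟩ := h
  exact ⟨⟨nb, A, a⟩, h1, h2, h3, h4, h5⟩

lemma sp_rk1 (A : Finset Λ) (a a' : (A → Fin q) → ℂ) : Sp A (rk1 A a a') := by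
  rw [rk1_eq]
  have := sp_em (sb A) (kt a a')
  rwa [rg_sb] at this

lemma rk1_ct (A : Finset Λ) (a a' : (A → Fin q) → ℂ) : (rk1 A a a')ᴴ = rk1 A a' a := by
  rw [rk1_eq, rk1_eq, ← em_ct, kt_ct]

lemma rk1_mul (A : Finset Λ) (a a' b b' : (A → Fin q) → ℂ) (h : ∑ τ, star (a' τ) * b τ = 1) :
    rk1 A a a' * rk1 A b b' = rk1 A a b' := by
  rw [rk1_eq, rk1_eq, rk1_eq, ← map_mul, kt_mul, h, one_smul]

namespace Fm.OK

variable {R : Fm Λ q} {Ω : N336.Vec Λ q} {B : ℕ} {ε : ℝ} {I O : Finset Λ}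

lemma sp (h : R.OK Ω B ε I O) : Sp O R.G :=
  Supp.sum fun α _ => (sp_rk1 _ _ _).mono (h.sub α).2

lemma norm_G (h : R.OK Ω B ε I O) : ‖R.G‖ ≤ 1 := by
  refine norm_le_one_of_proj ?_ ?_
  · simp only [Fm.G, conjTranspose_sum, rk1_ct]
  · rw [Fm.G, Finset.sum_mul_sum]
    refine Finset.sum_congr rfl fun α _ => ?_
    rw [Finset.sum_eq_single α]
    · exact rk1_mul _ _ _ _ _ (by rw [sum_star_self, h.nrm]; simp)
    · exact fun β _ hβ => h.orth α β hβ.symm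
    · simp

lemma nb_pos (h : R.OK Ω B ε I O) (hΩ : ‖Ω‖ = 1) (hε : ε < 1) : 1 ≤ R.nb := by
  by_contra h1
  have h2 : R.G = 0 := by
    have : IsEmpty (Fin R.nb) := ⟨fun i => by have := i.2; omega⟩
    simp [Fm.G]
  have h3 := h.close
  rw [h2, ap_zero, zero_sub, norm_neg, hΩ] at h3
  linarith

end Fm.OK

/-- A record: a family, tag registers and codes of the branches. -/
structure Rec (Λ Rg : Type) (q nt : ℕ) extends Fm Λ q where
  tag : Fin nt ↪ Rg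
  code : Fin nb ↪ (Fin nt → Fin q)

variable [NeZero q]

/-- The encoder. -/
noncomputable def Rec.E (R : Rec Λ Rg q nt) (ρ : Λ ↪ Rg) : N336.Op Rg q :=
  ∑ α, em R.tag (kt (bv (R.code α) 1) (bv 0 1)) * em ρ (rk1 (R.A α) (bv 0 1) (R.a α))

/-- Registers of a record. -/
def Rec.S (R : Rec Λ Rg q nt) (ρ : Λ ↪ Rg) (O : Finset Λ) : Finset Rg := rg R.tag ∪ O.map ρ

lemma map_subset_rg (ρ : Λ ↪ Rg) (O : Finset Λ) : O.map ρ ⊆ rg ρ :=
  Finset.map_subset_map.2 (Finset.subset_univ O)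

section rec

variable {R : Rec Λ Rg q nt} {ρ ρ' : Λ ↪ Rg} {Ω : N336.Vec Λ q} {B : ℕ} {ε : ℝ} {I O : Finset Λ}

lemma sp_E (h : R.toFm.OK Ω B ε I O) (ρ : Λ ↪ Rg) : Sp (R.S ρ O) (R.E ρ) :=
  Supp.sum fun α _ => (sp_em _ _).mul_union (Sp.em ρ ((sp_rk1 _ _ _).mono (h.sub α).2))

lemma E_congr (h : R.toFm.OK Ω B ε I O) (hρ : ∀ z ∈ O, ρ z = ρ' z) : R.E ρ = R.E ρ' :=
  Finset.sum_congr rfl fun α _ => by
    rw [em_congr hρ ((sp_rk1 _ _ _).mono (h.sub α).2)]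

lemma E_ct (R : Rec Λ Rg q nt) (ρ : Λ ↪ Rg) : (R.E ρ)ᴴ =
    ∑ α, em ρ (rk1 (R.A α) (R.a α) (bv 0 1)) * em R.tag (kt (bv 0 1) (bv (R.code α) 1)) := by
  simp only [Rec.E, conjTranspose_sum, conjTranspose_mul, ← em_ct, rk1_ct, kt_ct]

lemma EtE (hd : Disjoint (rg R.tag) (rg ρ)) :
    (R.E ρ)ᴴ * R.E ρ = em ρ R.toFm.G * em R.tag (kt (bv 0 1) (bv 0 1)) := by
  rw [E_ct, Rec.E, Finset.sum_mul_sum, Fm.G, map_sum, Finset.sum_mul]
  refine Finset.sum_congr rfl fun α _ => ?_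
  have h1 : ∀ β, em ρ (rk1 (R.A α) (R.a α) (bv 0 1)) * em R.tag (kt (bv 0 1) (bv (R.code α) 1)) *
      (em R.tag (kt (bv (R.code β) 1) (bv 0 1)) * em ρ (rk1 (R.A β) (bv 0 1) (R.a β))) =
      (if α = β then (1 : ℂ) else 0) • (em ρ (rk1 (R.A α) (R.a α) (bv 0 1)) *
        em ρ (rk1 (R.A β) (bv 0 1) (R.a β)) * em R.tag (kt (bv 0 1) (bv 0 1))) := by
    intro β
    rw [Matrix.mul_assoc, ← Matrix.mul_assoc (em R.tag _), ← map_mul, kt_mul, sum_star_bv,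
      map_smul, Matrix.smul_mul, ((sp_em _ _).commute (sp_em _ _) hd).eq, Matrix.mul_smul,
      Matrix.mul_assoc]
    simp only [R.code.injective.eq_iff]
  simp only [h1]
  rw [Finset.sum_eq_single α]
  · rw [if_pos rfl, one_smul, ← map_mul, rk1_mul _ _ _ _ _ (by rw [sum_star_bv, if_pos rfl])]
  · intro β _ hβ; rw [if_neg hβ.symm, zero_smul]
  · simp

lemma norm_P0 {κ : Type} [Fintype κ] [DecidableEq κ] (e : κ ↪ Rg) :
    ‖em e (kt (bv (q := q) 0 1) (bv 0 1))‖ ≤ 1 :=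
  (norm_em_le _ _).trans (norm_kt_le (by simp [sum_bv]) (by simp [sum_bv]))

lemma norm_E (h : R.toFm.OK Ω B ε I O) (hd : Disjoint (rg R.tag) (rg ρ)) : ‖R.E ρ‖ ≤ 1 := by
  refine norm_le_one_of_ct ?_
  rw [EtE hd]
  exact mul_le_one' ((norm_em_le _ _).trans h.norm_G) (norm_P0 _)

lemma close_E (h : R.toFm.OK Ω B ε I O) (hd : Disjoint (rg R.tag) (rg ρ)) (hΩ : ‖Ω‖ = 1)
    {W : (Rg → Fin q) → ℂ} (hW : Indep (rg ρ) W) (hz : Zr (rg R.tag) W) (hn : ‖tens ρ Ω W‖ ≤ 1) :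
    ‖ap ((R.E ρ)ᴴ * R.E ρ) (tens ρ Ω W) - tens ρ Ω W‖ ≤ ε := by
  have h1 : Zr (rg R.tag) (tens ρ Ω W) := hz.mul_left _
  rw [EtE hd, ap_mul, h1.fix]
  exact close_tens ρ hΩ hW hn h.close

end rec

end Crest.Agent.N336.P.Snd
end

-- ▼ part N336/P/Sound/Inv
section

/-!
# Row 336, soundness of plans: the invariant and the analytic part of the moves (helper29)
-/

set_option autoImplicit false
set_option linter.unusedSectionVars false

open Matrix Finset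
open scoped Matrix.Norms.L2Operator

namespace Crest.Agent.N336.P.Snd

open Crest.MathPhysics.LatticeSpin Crest.Agent.N336.Q

variable {Λ Rg Pa : Type} [Fintype Λ] [DecidableEq Λ] [Fintype Rg] [DecidableEq Rg]
  [DecidableEq Pa] {q nt : ℕ} [NeZero q]

/-- Data of the ideal state: main sheet, junk factor, records of the holes. -/
structure Dat (Λ Rg Pa : Type) (q nt : ℕ) where
  ρ : Λ ↪ Rg
  W : (Rg → Fin q) → ℂ
  rc : Hole Λ Pa → Rec Λ Rg q nt

/-- The structural invariant. -/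
structure Dat.OK (D : Dat Λ Rg Pa q nt) (Ω : N336.Vec Λ q) (B : ℕ) (ε : ℝ) (Fr : Finset Rg)
    (o : Rg → Pa) (s : CSt Λ Pa) : Prop where
  ind : Indep (rg D.ρ) D.W
  zF : Zr Fr D.W
  zT : ∀ v ∈ s.H, Zr (rg (D.rc v).tag) D.W
  nrm : ‖tens D.ρ Ω D.W‖ ≤ 1
  dF : Disjoint (rg D.ρ) Fr
  col : ∀ z, o (D.ρ z) = s.col z
  ok : ∀ v ∈ s.H, (D.rc v).toFm.OK Ω B ε v.I v.O
  tg : ∀ v ∈ s.H, ∀ j, o ((D.rc v).tag j) = v.tg
  dT : ∀ v ∈ s.H, Disjoint (rg (D.rc v).tag) (rg D.ρ)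
  dTF : ∀ v ∈ s.H, Disjoint (rg (D.rc v).tag) Fr
  pw : ∀ v ∈ s.H, ∀ w ∈ s.H, v ≠ w →
    Disjoint v.O w.O ∧ Disjoint (rg (D.rc v).tag) (rg (D.rc w).tag)

/-- encoder of a hole -/
noncomputable def Dat.E (D : Dat Λ Rg Pa q nt) (v : Hole Λ Pa) : N336.Op Rg q := (D.rc v).E D.ρ

/-- registers of a hole -/
def Dat.S (D : Dat Λ Rg Pa q nt) (v : Hole Λ Pa) : Finset Rg := (D.rc v).S D.ρ v.O

/-- the ideal vector -/
noncomputable def Dat.vec (D : Dat Λ Rg Pa q nt) (Ω : N336.Vec Λ q) (H : Finset (Hole Λ Pa)) :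
    N336.Vec Rg q := ap (prodF H D.E) (tens D.ρ Ω D.W)

/-- The invariant. -/
def Inv (nt : ℕ) (Ω : N336.Vec Λ q) (B : ℕ) (ε : ℝ) (Fr : Finset Rg) (o : Rg → Pa) (s : CSt Λ Pa)
    (δ : ℝ) (x : N336.Vec Rg q) : Prop :=
  ∃ D : Dat Λ Rg Pa q nt, D.OK Ω B ε Fr o s ∧ ‖x - D.vec Ω s.H‖ ≤ δ ∧ 1 - δ ≤ ‖D.vec Ω s.H‖

lemma disjoint_map_rg {ρ : Λ ↪ Rg} {O : Finset Λ} {T : Finset Rg} (h : Disjoint T (rg ρ)) :
    Disjoint T (O.map ρ) := h.mono_right (map_subset_rg ρ O)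

namespace Dat.OK

variable {D : Dat Λ Rg Pa q nt} {Ω : N336.Vec Λ q} {B : ℕ} {ε : ℝ} {Fr : Finset Rg} {o : Rg → Pa}
  {s : CSt Λ Pa}

lemma sp (h : D.OK Ω B ε Fr o s) {v : Hole Λ Pa} (hv : v ∈ s.H) : Sp (D.S v) (D.E v) :=
  sp_E (h.ok v hv) _

lemma norm_le (h : D.OK Ω B ε Fr o s) {v : Hole Λ Pa} (hv : v ∈ s.H) : ‖D.E v‖ ≤ 1 :=
  norm_E (h.ok v hv) (h.dT v hv)

lemma disj (h : D.OK Ω B ε Fr o s) {v w : Hole Λ Pa} (hv : v ∈ s.H) (hw : w ∈ s.H) (hne : v ≠ w) :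
    Disjoint (D.S v) (D.S w) := by
  obtain ⟨h1, h2⟩ := h.pw v hv w hw hne
  simp only [Dat.S, Rec.S, Finset.disjoint_union_left, Finset.disjoint_union_right]
  exact ⟨⟨h2, (disjoint_map_rg (h.dT w hw)).symm⟩, disjoint_map_rg (h.dT v hv),
    (Finset.disjoint_map _).2 h1⟩

lemma comm (h : D.OK Ω B ε Fr o s) {v w : Hole Λ Pa} (hv : v ∈ s.H) (hw : w ∈ s.H) (hne : v ≠ w) :
    Commute (D.E v) (D.E w) := (h.sp hv).commute (h.sp hw) (h.disj hv hw hne)

lemma disj_map (h : D.OK Ω B ε Fr o s) {v : Hole Λ Pa} (hv : v ∈ s.H) {Y : Finset Λ}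
    (hY : Disjoint v.O Y) : Disjoint (D.S v) (Y.map D.ρ) := by
  simp only [Dat.S, Rec.S, Finset.disjoint_union_left]
  exact ⟨disjoint_map_rg (h.dT v hv), (Finset.disjoint_map _).2 hY⟩

lemma norm_prod (h : D.OK Ω B ε Fr o s) {T : Finset (Hole Λ Pa)} (hT : T ⊆ s.H) :
    ‖prodF T D.E‖ ≤ 1 := norm_prodF_le fun _ hv => h.norm_le (hT hv)

lemma close (h : D.OK Ω B ε Fr o s) (hΩ : ‖Ω‖ = 1) {T : Finset (Hole Λ Pa)} (hT : T ⊆ s.H) :
    ‖ap ((prodF T D.E)ᴴ * prodF T D.E) (tens D.ρ Ω D.W) - tens D.ρ Ω D.W‖ ≤ T.card * ε :=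
  close_prodF (fun _ hv => h.norm_le (hT hv))
    (fun _ hv _ hw hne => ((h.sp (hT hv)).conjTranspose.mul (h.sp (hT hv))).commute
      (h.sp (hT hw)) (h.disj (hT hv) (hT hw) hne))
    fun v hv => close_E (h.ok v (hT hv)) (h.dT v (hT hv)) hΩ h.ind (h.zT v (hT hv)) h.nrm

lemma split (h : D.OK Ω B ε Fr o s) {T T' : Finset (Hole Λ Pa)} (hd : Disjoint T T')
    (hT : T ∪ T' ⊆ s.H) : prodF (T ∪ T') D.E = prodF T D.E * prodF T' D.E :=
  prodF_union hd fun _ hv _ hw hne => h.comm (hT hv) (hT hw) hne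

lemma sp_prod (h : D.OK Ω B ε Fr o s) {T : Finset (Hole Λ Pa)} (hT : T ⊆ s.H) :
    Sp (T.biUnion D.S) (prodF T D.E) :=
  sp_prodF fun _ hv => (h.sp (hT hv)).mono (Finset.subset_biUnion_of_mem D.S hv)

lemma disj_prod (h : D.OK Ω B ε Fr o s) {T T' : Finset (Hole Λ Pa)} (hd : Disjoint T T')
    (hT : T ⊆ s.H) (hT' : T' ⊆ s.H) : Disjoint (T.biUnion D.S) (T'.biUnion D.S) := by
  rw [Finset.disjoint_biUnion_left]
  intro v hv
  rw [Finset.disjoint_biUnion_right]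
  intro w hw
  exact h.disj (hT hv) (hT' hw) fun e => Finset.disjoint_left.1 hd hv (e ▸ hw)


end Dat.OK

/-- analytic part of the paint and final moves -/
theorem paint_an {D : Dat Λ Rg Pa q nt} {Ω : N336.Vec Λ q} {B : ℕ} {ε : ℝ} {Fr Fr' : Finset Rg}
    {o o' : Rg → Pa} {s s' : CSt Λ Pa} (hΩ : ‖Ω‖ = 1) (h : D.OK Ω B ε Fr o s)
    {rc' : Hole Λ Pa → Rec Λ Rg q nt} (h' : (⟨D.ρ, D.W, rc'⟩ : Dat Λ Rg Pa q nt).OK Ω B ε Fr' o' s')
    {old new : Finset (Hole Λ Pa)} (ho : old ⊆ s.H) (hH : s'.H = (s.H \ old) ∪ new)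
    (hd : Disjoint (s.H \ old) new) (hrc : ∀ v ∈ s.H \ old, rc' v = D.rc v)
    {C : N336.Op Λ q} {c : ℝ} {Y : Finset Λ} (hC : ‖C‖ ≤ 1) (hY : Sp Y C)
    (hYd : ∀ v ∈ s.H \ old, Disjoint v.O Y) (hc : ‖ap C Ω - Ω‖ ≤ c) :
    ‖ap (prodF new (Dat.E ⟨D.ρ, D.W, rc'⟩) * em D.ρ C * (prodF old D.E)ᴴ) (D.vec Ω s.H) -
        Dat.vec ⟨D.ρ, D.W, rc'⟩ Ω s'.H‖ ≤ old.card * ε + c ∧
      ‖D.vec Ω s.H‖ ≤ ‖Dat.vec ⟨D.ρ, D.W, rc'⟩ Ω s'.H‖ + new.card * ε := by
  set D' : Dat Λ Rg Pa q nt := ⟨D.ρ, D.W, rc'⟩ with hD'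
  set S := prodF (s.H \ old) D.E with hS
  set P := prodF old D.E with hP
  set N := prodF new D'.E with hN
  set y := tens D.ρ Ω D.W with hy
  have hst : s.H \ old ⊆ s.H := Finset.sdiff_subset
  have hst' : s.H \ old ⊆ s'.H := hH ▸ Finset.subset_union_left
  have hnw : new ⊆ s'.H := hH ▸ Finset.subset_union_right
  have hS' : prodF (s.H \ old) D'.E = S := prodF_congr fun v hv => by
    simp only [Dat.E, hD', hrc v hv]
  have hv : D.vec Ω s.H = ap (S * P) y := by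
    rw [Dat.vec, hS, hP, ← h.split Finset.sdiff_disjoint (by rw [Finset.sdiff_union_of_subset ho]),
      Finset.sdiff_union_of_subset ho]
  have hv' : D'.vec Ω s'.H = ap (S * N) y := by
    rw [Dat.vec, ← hS', hN, ← h'.split hd (by rw [hH]), ← hH]
  have nS : ‖S‖ ≤ 1 := h.norm_prod hst
  have nP : ‖P‖ ≤ 1 := h.norm_prod ho
  have nN : ‖N‖ ≤ 1 := h'.norm_prod hnw
  have nC : ‖em D.ρ C‖ ≤ 1 := (norm_em_le _ _).trans hC
  have cP : Commute S P :=
    (h.sp_prod hst).commute (h.sp_prod ho) (h.disj_prod Finset.sdiff_disjoint hst ho)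
  have cP' : Commute S Pᴴ :=
    (h.sp_prod hst).commute (h.sp_prod ho).conjTranspose (h.disj_prod Finset.sdiff_disjoint hst ho)
  have cN : Commute S N := by
    rw [← hS']; exact (h'.sp_prod hst').commute (h'.sp_prod hnw) (h'.disj_prod hd hst' hnw)
  have cN' : Commute S Nᴴ := by
    rw [← hS']
    exact (h'.sp_prod hst').commute (h'.sp_prod hnw).conjTranspose (h'.disj_prod hd hst' hnw)
  have cC : Commute S (em D.ρ C) := (h.sp_prod hst).commute (hY.em D.ρ) (by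
    rw [Finset.disjoint_biUnion_left]
    exact fun v hv => h.disj_map (hst hv) (hYd v hv))
  have k1 := h.close hΩ ho
  have k2 := h'.close hΩ hnw
  have k3 := close_tens D.ρ hΩ h.ind h.nrm hc
  rw [hv, hv']
  constructor
  · have e1 : N * em D.ρ C * Pᴴ * (S * P) = S * N * (em D.ρ C * (Pᴴ * P)) := by
      have : Commute S (N * em D.ρ C * Pᴴ) := (cN.mul_right cC).mul_right cP'
      rw [← Matrix.mul_assoc, ← this.eq]
      simp only [Matrix.mul_assoc]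
    have e2 : ap (N * em D.ρ C * Pᴴ) (ap (S * P) y) - ap (S * N) y =
        ap (S * N) (ap (em D.ρ C) (ap (Pᴴ * P) y - y) + (ap (em D.ρ C) y - y)) := by
      rw [← ap_mul, e1, ap_mul (S * N), ap_mul (em D.ρ C), ← map_sub, map_sub (ap (em D.ρ C))]
      congr 1; abel
    rw [e2]
    refine (ap_le_of_le_one (mul_le_one' nS nN) _).trans ((norm_add_le _ _).trans ?_)
    exact add_le_add ((ap_le_of_le_one nC _).trans k1) k3
  · have e1 : ‖ap (S * P) y‖ ≤ ‖ap S y‖ := by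
      rw [cP.eq, ap_mul]; exact ap_le_of_le_one nP _
    have e2 : ap S y = ap Nᴴ (ap (S * N) y) - ap S (ap (Nᴴ * N) y - y) := by
      rw [← ap_mul, ← Matrix.mul_assoc, ← cN'.eq, Matrix.mul_assoc, ap_mul S, map_sub]; abel
    have e3 : ‖ap Nᴴ (ap (S * N) y)‖ ≤ ‖ap (S * N) y‖ := ap_le_of_le_one (by rwa [norm_ct]) _
    have e4 := (ap_le_of_le_one nS (ap (Nᴴ * N) y - y)).trans k2
    have e5 := norm_sub_le (ap Nᴴ (ap (S * N) y)) (ap S (ap (Nᴴ * N) y - y))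
    rw [← e2] at e5
    linarith

/-- the invariant after a gate -/
lemma inv_of {D D' : Dat Λ Rg Pa q nt} {Ω : N336.Vec Λ q} {B : ℕ} {ε δ η : ℝ} {Fr' : Finset Rg}
    {o' : Rg → Pa} {s' : CSt Λ Pa} {H : Finset (Hole Λ Pa)} {x : N336.Vec Rg q}
    {M : N336.Op Rg q} (hM : ‖M‖ ≤ 1) (h' : D'.OK Ω B ε Fr' o' s') (h1 : ‖x - D.vec Ω H‖ ≤ δ)
    (h2 : 1 - δ ≤ ‖D.vec Ω H‖) (h3 : ‖ap M (D.vec Ω H) - D'.vec Ω s'.H‖ ≤ η)
    (h4 : ‖D.vec Ω H‖ ≤ ‖D'.vec Ω s'.H‖ + η) : Inv nt Ω B ε Fr' o' s' (δ + η) (ap M x) := by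
  refine ⟨D', h', ?_, by linarith⟩
  have e : ap M x - D'.vec Ω s'.H = ap M (x - D.vec Ω H) + (ap M (D.vec Ω H) - D'.vec Ω s'.H) := by
    rw [map_sub]; abel
  rw [e]
  exact (norm_add_le _ _).trans (add_le_add ((ap_le_of_le_one hM _).trans h1) h3)

end Crest.Agent.N336.P.Snd
end

-- ▼ part N336/P/Sound/Exch
section

/-!
# Row 336, soundness of plans: the exchange move (helper29)
-/

set_option autoImplicit false
set_option linter.unusedSectionVars false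

open Matrix Finset
open scoped Matrix.Norms.L2Operator

namespace Crest.Agent.N336.P.Snd

open Crest.MathPhysics.LatticeSpin Crest.Agent.N336.Q

variable {Λ Rg Pa : Type} [Fintype Λ] [DecidableEq Λ] [Fintype Rg] [DecidableEq Rg]
  [DecidableEq Pa] {q nt : ℕ} [NeZero q]

/-- the two readings of the double sheet -/
def swE (A : Finset Λ) : (Bool × Λ → Fin q) ≃ (Λ → Fin q) × (Λ → Fin q) where
  toFun σ := (fun x => σ (decide (x ∈ A), x), fun x => σ (!decide (x ∈ A), x))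
  invFun p := fun y => if y.1 = decide (y.2 ∈ A) then p.1 y.2 else p.2 y.2
  left_inv σ := by
    funext ⟨b, x⟩
    by_cases h : x ∈ A <;> cases b <;> simp [h]
  right_inv p := by
    ext x <;> by_cases h : x ∈ A <;> simp [h]

lemma norm_swp (A : Finset Λ) {Ω : N336.Vec Λ q} (hΩ : ‖Ω‖ = 1) : ‖swp A Ω‖ = 1 := by
  have h1 : ∑ σ, ‖Ω σ‖ ^ 2 = 1 := by rw [← EuclideanSpace.norm_sq_eq, hΩ, one_pow]
  rw [← sq_eq_sq₀ (norm_nonneg _) zero_le_one, one_pow, EuclideanSpace.norm_sq_eq]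
  have h2 : ∀ σ, ‖swp A Ω σ‖ ^ 2 = ‖Ω (swE A σ).1‖ ^ 2 * ‖Ω (swE A σ).2‖ ^ 2 := fun σ => by
    rw [← mul_pow, ← norm_mul]; rfl
  simp only [h2]
  rw [(swE A).sum_comp fun p => ‖Ω p.1‖ ^ 2 * ‖Ω p.2‖ ^ 2, Fintype.sum_prod_type]
  simp only [← Finset.mul_sum, h1, mul_one]

/-- the double sheet -/
def dbl (ρ f : Λ ↪ Rg) (h : Disjoint (rg ρ) (rg f)) : Bool × Λ ↪ Rg where
  toFun y := if y.1 then f y.2 else ρ y.2
  inj' := by
    rintro ⟨b, x⟩ ⟨c, y⟩ e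
    have h1 : ∀ x y, ρ x ≠ f y := fun x y e =>
      Finset.disjoint_left.1 h (apply_mem_rg ρ x) (e ▸ apply_mem_rg f y)
    cases b <;> cases c <;> simp only [Bool.false_eq_true, if_true, if_false] at e
    · rw [ρ.injective e]
    · exact absurd e (h1 _ _)
    · exact absurd e.symm (h1 _ _)
    · rw [f.injective e]

/-- the sheet reading `c` on `A` and `!c` elsewhere -/
def sel (A : Finset Λ) (c : Bool) : Λ ↪ Bool × Λ :=
  ⟨fun x => (if c then decide (x ∈ A) else !decide (x ∈ A), x), fun _ _ e => congrArg Prod.snd e⟩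

lemma disjoint_sel (A : Finset Λ) : Disjoint (rg (sel A true)) (rg (sel A false)) := by
  rw [Finset.disjoint_left]
  intro y h h'
  obtain ⟨x, rfl⟩ := mem_rg.1 h
  obtain ⟨x', e⟩ := mem_rg.1 h'
  obtain rfl : x' = x := congrArg Prod.snd e
  have := congrArg Prod.fst e
  simp [sel] at this

lemma tens_swp (e : Bool × Λ ↪ Rg) (A : Finset Λ) (Ω : N336.Vec Λ q) (W : (Rg → Fin q) → ℂ) :
    tens e (swp A Ω) W =
      tens ((sel A true).trans e) Ω (tens ((sel A false).trans e) Ω W) := by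
  ext σ
  exact mul_assoc _ _ _

/-- `W` with the registers `f` set to zero -/
noncomputable def zer (f : Λ ↪ Rg) (W : (Rg → Fin q) → ℂ) : (Rg → Fin q) → ℂ :=
  fun σ => W ((eqv f fun _ => Fin q).symm (0, off (rg f) σ))

lemma Zr.zer {f : Λ ↪ Rg} {W : (Rg → Fin q) → ℂ} {Y : Finset Rg} (h : Zr Y W)
    (hd : Disjoint Y (rg f)) : Zr Y (zer f W) := fun σ hσ r hr => by
  rw [← symm_apply_off f σ 0 (Finset.disjoint_left.1 hd hr)]
  exact h _ hσ r hr

lemma Indep.zer {f : Λ ↪ Rg} {W : (Rg → Fin q) → ℂ} {Y : Finset Rg} (h : Indep Y W) :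
    Indep (Y ∪ rg f) (zer f W) := fun σ τ hστ => by
  refine h _ _ fun r hr => ?_
  by_cases hx : r ∈ rg f
  · obtain ⟨k, rfl⟩ := mem_rg.1 hx
    rw [symm_apply_e, symm_apply_e]
  · rw [symm_apply_off _ _ _ hx, symm_apply_off _ _ _ hx]
    exact hστ r (by simp only [Finset.mem_union, not_or]; exact ⟨hr, hx⟩)

lemma Indep.tens {e : Λ ↪ Rg} {Y : Finset Rg} {W : (Rg → Fin q) → ℂ} (h : Indep Y W)
    (hd : Disjoint Y (rg e)) (φ : N336.Vec Λ q) : Indep Y (tens e φ W) := fun σ τ hστ => by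
  rw [tens_apply, tens_apply, h σ τ hστ]
  exact congrArg (· * W τ) (indep_res hd φ σ τ hστ)

lemma src_tens (ρ f : Λ ↪ Rg) (h : Disjoint (rg ρ) (rg f)) (Ω : N336.Vec Λ q)
    (W : (Rg → Fin q) → ℂ) : ap (em f (kt Ω (bv 0 1))) (tens ρ Ω W) =
      tens (dbl ρ f h) (swp ∅ Ω) (zer f W) := by
  ext σ
  rw [ap_em_kt_zero, tens_apply, tens_apply]
  have h1 : (fun k => (eqv f fun _ => Fin q).symm (0, off (rg f) σ) (ρ k)) = fun k => σ (ρ k) :=
    funext fun k => symm_apply_off _ _ _ (Finset.disjoint_left.1 h (apply_mem_rg ρ k))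
  rw [h1, ← mul_assoc, mul_comm (Ω _)]
  have h2 : swp ∅ Ω (fun k => σ (dbl ρ f h k)) = Ω (fun k => σ (ρ k)) * Ω fun k => σ (f k) := by
    simp only [swp, Finset.notMem_empty, decide_false, Bool.not_false]
    rfl
  rw [h2]; rfl

lemma rg_dbl (ρ f : Λ ↪ Rg) (h : Disjoint (rg ρ) (rg f)) : rg (dbl ρ f h) ⊆ rg ρ ∪ rg f := by
  intro r hr
  obtain ⟨⟨b, x⟩, rfl⟩ := mem_rg.1 hr
  cases b
  · exact Finset.mem_union_left _ (apply_mem_rg ρ x)
  · exact Finset.mem_union_right _ (apply_mem_rg f x)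

lemma map_subset_rg' {κ : Type} [Fintype κ] (e : κ ↪ Rg) (O : Finset κ) : O.map e ⊆ rg e :=
  Finset.map_subset_map.2 (Finset.subset_univ O)

theorem exch_step {Ω : N336.Vec Λ q} {B : ℕ} {ε δ : ℝ} {Fr Fr' : Finset Rg} {I : Finset Pa}
    {o : Rg → Pa} {s s' : CSt Λ Pa} {x : N336.Vec Rg q} (hΩ : ‖Ω‖ = 1) (f : Λ ↪ Rg)
    (hF : Fr' ⊆ Fr) (hf : rg f ⊆ Fr) (hf' : Disjoint (rg f) Fr')
    (ho : I.Nonempty → ∀ z, o (f z) ∈ I) (hm : ExchMove (fun A F => Exch Ω A F ε) I s s')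
    (hx : Inv nt Ω B ε Fr o s δ x) :
    ∃ (g : Gate Rg Pa q) (o' : Rg → Pa), g.I = I ∧ g.Valid 1 2 o o' ∧ (∀ r ∈ Fr', o' r = o r) ∧
      Inv nt Ω B ε Fr' o' s' (δ + ε) (act g.op x) := by
  obtain ⟨A, F, u, p, hAF, ⟨U, hU, hUs, hUe⟩, hu, hp, hbuf, hH, hcol, hH'⟩ := hm
  obtain ⟨D, h, hx1, hx2⟩ := hx
  have ho' := ho ⟨u, hu⟩
  have hρf : Disjoint (rg D.ρ) (rg f) := h.dF.mono_right hf
  have hρf' : ∀ z, D.ρ z ∉ rg f := fun z => Finset.disjoint_left.1 hρf (apply_mem_rg _ z)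
  set ρ2 := dbl D.ρ f hρf with hρ2
  set Y := Finset.univ.filter fun y : Bool × Λ => y.2 ∉ A ∧ y.2 ∉ F with hY
  have hUY : Sp Y U := isSupportedOn_iff.1 hUs
  obtain ⟨m, hm⟩ := hUY.exists_lift
  have hm' : em (sb Y) m = U := hm
  have hUU : Uᴴ * U = 1 := Matrix.mem_unitaryGroup_iff'.1 hU
  have nU : ‖U‖ ≤ 1 := norm_le_one_of_ct (by rw [hUU]; exact norm_one_le)
  have nm : ‖m‖ ≤ 1 := by rw [← norm_em (sb Y) m, hm']; exact nU
  have nΩ : ∑ σ, ‖Ω σ‖ ^ 2 = 1 := by rw [← EuclideanSpace.norm_sq_eq, hΩ, one_pow]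
  -- the gate
  let o' : Rg → Pa := fun r => if r ∈ A.map f then p else if r ∈ rg f then u else o r
  have o1 : ∀ r, r ∉ rg f → o' r = o r := fun r hr => by
    simp only [o', if_neg hr, if_neg fun h => hr (map_subset_rg f A h)]
  have o2 : ∀ z, o' (f z) = if z ∈ A then p else u := fun z => by
    simp only [o', Finset.mem_map' f, apply_mem_rg, if_true]
  let s1 : PS Rg Pa q := PS.rk f Ω (bv 0 1) (fun _ => True) (fun p' => Mem p' (u, p)) nΩ.le
    (by simp [sum_bv]) (Or.inr ⟨0, 1, rfl⟩) (Or.inl ⟨(u, p), fun _ h => h⟩)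
  let s2 : PS Rg Pa q := PS.pv ((sb Y).trans ρ2) m u nm
  have hs2 : ∀ r ∈ s2.A, ∃ z, z ∉ A ∧ z ∉ F ∧ (r = D.ρ z ∨ r = f z) := by
    intro r hr
    obtain ⟨⟨⟨b, z⟩, hy⟩, rfl⟩ := mem_rg.1 hr
    have hy' := (Finset.mem_filter.1 hy).2
    refine ⟨z, hy'.1, hy'.2, ?_⟩
    cases b
    · exact Or.inl rfl
    · exact Or.inr rfl
  have hfeas : Feas I o o' [s1, s2] := by
    refine own (l := [s1, s2]) ⟨fun r hr => ?_, fun r hr => ⟨u, rfl, hu, ?_⟩, trivial⟩ fun r => ?_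
    · obtain ⟨z, rfl⟩ := mem_rg.1 hr
      by_cases h2 : f z ∈ s2.A
      · exact ⟨u, Or.inl rfl, hu, by rw [req, if_pos h2]; exact ⟨rfl, hu⟩⟩
      · refine ⟨o' (f z), ?_, ?_, by rw [req, if_neg h2]; rfl⟩ <;> rw [o2] <;> split_ifs
        exacts [Or.inr rfl, Or.inl rfl, hp, hu]
    · obtain ⟨z, h1, h2, rfl | rfl⟩ := hs2 r hr
      · change u = o' _
        rw [o1 _ (hρf' z), h.col, hbuf z h1 h2]
      · change u = o' _
        rw [o2, if_neg h1]
    · by_cases h1 : r ∈ s1.A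
      · rw [req, if_pos h1]
        obtain ⟨z, rfl⟩ := mem_rg.1 h1
        exact ⟨trivial, ho' z⟩
      · rw [req, if_neg h1]
        by_cases h2 : r ∈ s2.A
        · rw [req, if_pos h2]
          obtain ⟨z, h3, h4, rfl | rfl⟩ := hs2 r h2
          · rw [h.col, hbuf z h3 h4]; exact ⟨rfl, hu⟩
          · exact absurd (apply_mem_rg f z) h1
        · rw [req, if_neg h2]
          exact (o1 r h1).symm
  set S := em f (kt Ω (bv 0 1)) with hS
  have nS : ‖S‖ ≤ 1 := (norm_em_le _ _).trans (norm_kt_le nΩ.le (by simp [sum_bv]))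
  have nM : ‖em ρ2 U * S‖ ≤ 1 := mul_le_one' ((norm_em_le _ _).trans nU) nS
  have hop : opF [[s1, s2]] = em ρ2 U * S := by
    simp only [opF, opP, List.map_cons, List.map_nil, List.sum_cons, List.sum_nil, add_zero,
      Matrix.one_mul]
    rw [show s1.op = S from PS.rk_op .., show s2.op = _ from PS.pv_op .., ← em_em, hm']
  obtain ⟨g, hg1, hg2, hg3⟩ := exists_gate (I := I) (o := o) (o' := o') (B := 1) (ℓ := 2)
    [[s1, s2]] le_rfl le_rfl (by simpa using hfeas) (by rw [hop]; exact nM)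
  refine ⟨g, o', hg1, hg2, fun r hr => o1 r (Finset.disjoint_right.1 hf' hr), ?_⟩
  -- the new data
  set HA := s.H.filter fun v => ¬ v.O ⊆ F with hHA
  have hHA1 : HA ⊆ s.H := Finset.filter_subset _ _
  have hs' : s'.H ⊆ s.H := hH' ▸ Finset.filter_subset _ _
  have hsF : ∀ v ∈ s'.H, v.O ⊆ F := fun v hv => by
    rw [hH'] at hv; exact (Finset.mem_filter.1 hv).2
  have hdj : Disjoint s'.H HA := hH' ▸ Finset.disjoint_filter_filter_not _ _ _
  have hun : s'.H ∪ HA = s.H := hH' ▸ Finset.filter_union_filter_not_eq _ _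
  set ρ' := (sel A true).trans ρ2 with hρ'
  set ρ'' := (sel A false).trans ρ2 with hρ''
  have r1 : ∀ z, ρ' z = if z ∈ A then f z else D.ρ z := fun z => by
    change (if (decide (z ∈ A)) then f z else D.ρ z) = _
    by_cases hz : z ∈ A <;> simp [hz]
  have r2 : rg ρ' ⊆ rg D.ρ ∪ rg f := by
    rw [hρ', rg_trans]; exact (map_subset_rg' _ _).trans (rg_dbl _ _ _)
  have r3 : Disjoint (rg ρ') (rg ρ'') := by
    rw [hρ', hρ'', rg_trans, rg_trans, Finset.disjoint_map]; exact disjoint_sel A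
  have dT : ∀ v ∈ s.H, Disjoint (rg (D.rc v).tag) (rg D.ρ ∪ rg f) := fun v hv =>
    Finset.disjoint_union_right.2 ⟨h.dT v hv, (h.dTF v hv).mono_right hf⟩
  have dS : ∀ v ∈ s.H, Disjoint (D.S v) Fr := fun v hv =>
    Finset.disjoint_union_left.2 ⟨h.dTF v hv, h.dF.mono_left (map_subset_rg _ _)⟩
  have dA : Disjoint (HA.biUnion D.S) (rg ρ') := by
    rw [Finset.disjoint_biUnion_left]
    intro v hv
    obtain ⟨hv1, hv2⟩ := Finset.mem_filter.1 hv
    refine Finset.disjoint_union_left.2 ⟨(dT v hv1).mono_right r2, ?_⟩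
    rw [Finset.disjoint_left]
    intro r h1 h2
    obtain ⟨z, hz, rfl⟩ := Finset.mem_map.1 h1
    obtain ⟨z', e⟩ := mem_rg.1 h2
    rw [r1] at e
    split_ifs at e with h3
    · exact hρf' z (e ▸ apply_mem_rg f z')
    · exact h3 (D.ρ.injective e ▸ ((hH v hv1).resolve_right hv2) hz)
  set W' := zer f D.W with hW'
  have iW' : Indep (rg D.ρ ∪ rg f) W' := h.ind.zer
  have iW2 : Indep (rg ρ2) W' := iW'.mono (rg_dbl _ _ _)
  have n0 : ‖tens ρ2 (swp ∅ Ω) W'‖ ≤ 1 := by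
    rw [← src_tens]; exact (ap_le_of_le_one nS _).trans h.nrm
  set PA := prodF HA D.E with hPA
  have key : ap PA (tens ρ2 (swp A Ω) W') = tens ρ' Ω (ap PA (tens ρ'' Ω W')) := by
    rw [tens_swp, ap_tens (h.sp_prod hHA1) dA]
  let D' : Dat Λ Rg Pa q nt := ⟨ρ', ap PA (tens ρ'' Ω W'), D.rc⟩
  have hE : ∀ v ∈ s'.H, D'.E v = D.E v := fun v hv => E_congr (h.ok v (hs' hv)) fun z hz => by
    change ρ' z = _
    rw [r1, if_neg (Finset.disjoint_right.1 hAF (hsF v hv hz))]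
  have zz : ∀ T : Finset Rg, Zr T D.W → Disjoint T (rg f) → Disjoint (HA.biUnion D.S) T →
      Zr T D'.W := fun T h1 h2 h3 =>
    Zr.ap (h.sp_prod hHA1) h3 ((h1.zer h2).mul_left _)
  have h' : D'.OK Ω B ε Fr' o' s' :=
    { ind := Indep.ap (h.sp_prod hHA1) dA ((iW'.mono r2).tens r3 Ω)
      zF := zz _ (h.zF.mono hF) hf'.symm (by
        rw [Finset.disjoint_biUnion_left]; exact fun v hv => (dS v (hHA1 hv)).mono_right hF)
      zT := fun v hv => zz _ (h.zT v (hs' hv)) ((h.dTF v (hs' hv)).mono_right hf) (by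
        rw [Finset.disjoint_biUnion_left]
        exact fun w hw => (h.disj (hHA1 hw) (hs' hv) fun e =>
          Finset.disjoint_left.1 hdj hv (e ▸ hw)).mono_right Finset.subset_union_left)
      nrm := by
        change ‖tens ρ' Ω (ap PA (tens ρ'' Ω W'))‖ ≤ 1
        rw [← key]
        refine (ap_le_of_le_one (h.norm_prod hHA1) _).trans ?_
        rw [norm_tens ρ2 _ (norm_swp ∅ hΩ) iW2, norm_swp A hΩ, one_mul]
        exact n0
      dF := (Finset.disjoint_union_left.2 ⟨h.dF.mono_right hF, hf'⟩).mono_left r2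
      col := fun z => by
        change o' (ρ' z) = _
        rw [r1, hcol]
        split_ifs with hz
        · rw [o2, if_pos hz]
        · rw [o1 _ (hρf' z), h.col]
      ok := fun v hv => h.ok v (hs' hv)
      tg := fun v hv j => by
        change o' ((D.rc v).tag j) = _
        rw [o1 _ (Finset.disjoint_left.1 ((h.dTF v (hs' hv)).mono_right hf) (apply_mem_rg _ j)),
          h.tg v (hs' hv)]
      dT := fun v hv => (dT v (hs' hv)).mono_right r2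
      dTF := fun v hv => (h.dTF v (hs' hv)).mono_right hF
      pw := fun v hv w hw => h.pw v (hs' hv) w (hs' hw) }
  set P := prodF s.H D.E with hP
  have nP : ‖P‖ ≤ 1 := h.norm_prod subset_rfl
  have hv' : D'.vec Ω s'.H = ap P (tens ρ2 (swp A Ω) W') := by
    rw [Dat.vec, prodF_congr hE, hP, ← hun, h.split hdj hun.subset, ap_mul, key]
  have c1 : Commute P S := (h.sp_prod subset_rfl).commute (sp_em _ _) (by
    rw [Finset.disjoint_biUnion_left]; exact fun v hv => (dS v hv).mono_right hf)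
  have c2 : Commute P (em ρ2 U) := (h.sp_prod subset_rfl).commute (hUY.em ρ2) (by
    rw [Finset.disjoint_biUnion_left]
    intro v hv
    refine Finset.disjoint_union_left.2
      ⟨(dT v hv).mono_right ((map_subset_rg' _ _).trans (rg_dbl _ _ _)), ?_⟩
    rw [Finset.disjoint_left]
    intro r h1 h2
    obtain ⟨z, hz, rfl⟩ := Finset.mem_map.1 h1
    obtain ⟨⟨b, z'⟩, hy, e⟩ := Finset.mem_map.1 h2
    have hy' := (Finset.mem_filter.1 hy).2
    cases b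
    · obtain rfl : z' = z := D.ρ.injective e
      rcases hH v hv with h3 | h3
      exacts [hy'.1 (h3 hz), hy'.2 (h3 hz)]
    · exact hρf' z (e ▸ apply_mem_rg f z'))
  have k1 : ‖ap (em ρ2 U * S) (D.vec Ω s.H) - D'.vec Ω s'.H‖ ≤ ε := by
    rw [hv', Dat.vec, ← ap_mul, ← (c2.mul_right c1).eq, ap_mul, ap_mul, src_tens _ _ hρf,
      ap_em_tens _ _ _ iW2, ← map_sub, ← tens_sub]
    refine (ap_le_of_le_one nP _).trans ?_
    rw [norm_tens ρ2 _ (norm_swp ∅ hΩ) iW2]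
    have := norm_nonneg (ap U (swp ∅ Ω) - swp A Ω)
    have h3 : ‖ap U (swp ∅ Ω) - swp A Ω‖ ≤ ε := hUe
    nlinarith [norm_nonneg (tens ρ2 (swp ∅ Ω) W')]
  have k2 : ‖D.vec Ω s.H‖ ≤ ‖ap (em ρ2 U * S) (D.vec Ω s.H)‖ := by
    have z1 : Zr (rg f) (D.vec Ω s.H) := Zr.ap (h.sp_prod subset_rfl) (by
      rw [Finset.disjoint_biUnion_left]; exact fun v hv => (dS v hv).mono_right hf)
      ((h.zF.mono hf).mul_left _)
    have e : (em ρ2 U * S)ᴴ * (em ρ2 U * S) = em f (kt (bv 0 1) (bv 0 1)) := by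
      rw [conjTranspose_mul, Matrix.mul_assoc, ← Matrix.mul_assoc (em ρ2 U)ᴴ, ← em_ct ρ2, ← map_mul,
        hUU, map_one, Matrix.one_mul, hS, ← em_ct, ← map_mul, kt_ct, kt_mul, sum_star_self, nΩ]
      simp
    conv_lhs => rw [← z1.fix, ← e, ap_mul]
    exact ap_le_of_le_one (by rwa [norm_ct]) _
  rw [hg3, hop]
  refine inv_of nM h' hx1 hx2 k1 ?_
  have := norm_sub_norm_le (ap (em ρ2 U * S) (D.vec Ω s.H)) (D'.vec Ω s'.H)
  linarith

end Crest.Agent.N336.P.Snd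
end

-- ▼ part N336/P/Sound/Layer
section

/-!
# Row 336, soundness of plans: layers, the final move, owners for the paint move (helper29)
-/

set_option autoImplicit false
set_option linter.unusedSectionVars false

open Matrix Finset
open scoped Matrix.Norms.L2Operator

namespace Crest.Agent.N336.P.Snd

open Crest.MathPhysics.LatticeSpin Crest.Agent.N336.Q

variable {Λ Rg Pa : Type} [Fintype Λ] [DecidableEq Λ] [Fintype Rg] [DecidableEq Rg]
  [DecidableEq Pa] {q nt : ℕ} [NeZero q]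

lemma rg_sb_trans (A : Finset Λ) (ρ : Λ ↪ Rg) : rg ((sb A).trans ρ) = A.map ρ := by
  rw [rg_trans, rg_sb]

lemma em_rk1 (A : Finset Λ) (ρ : Λ ↪ Rg) (a a' : (A → Fin q) → ℂ) :
    em ((sb A).trans ρ) (kt a a') = em ρ (rk1 A a a') := by rw [rk1_eq, em_em]

lemma bv_le {κ : Type} [Fintype κ] [DecidableEq κ] (b : κ → Fin q) :
    ∑ σ, ‖bv b 1 σ‖ ^ 2 ≤ 1 := by simp [sum_bv]

lemma adm_bv {κ : Type} [Fintype κ] [DecidableEq κ] (P : Pa → Prop) (b : κ → Fin q) (c : ℂ) :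
    Adm P (bv b c) := Or.inr ⟨b, c, rfl⟩

lemma adm_mem {κ : Type} [Fintype κ] [DecidableEq κ] (P : Pa × Pa) (a : (κ → Fin q) → ℂ) :
    Adm (fun p => Mem p P) a := Or.inl ⟨P, fun _ h => h⟩

section layers

variable {Ω : N336.Vec Λ q} {B : ℕ} {ε : ℝ} {I O : Finset Λ}

/-- decoding layer -/
lemma exists_dec {R : Rec Λ Rg q nt} (h : R.toFm.OK Ω B ε I O) (ρ : Λ ↪ Rg) (P : Pa × Pa) :
    ∃ L : List (List (PS Rg Pa q)), L.length = R.nb ∧ opF L = (R.E ρ)ᴴ ∧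
      ∀ b ∈ L, ∃ A s1 s2, I ⊆ A ∧ A ⊆ O ∧ b = [s1, s2] ∧ s1.A = rg R.tag ∧ (∀ p, s1.In p) ∧
        (∀ p, s1.Out p) ∧ s2.A = A.map ρ ∧ (∀ p, s2.In p) ∧ ∀ p, Mem p P → s2.Out p := by
  refine ⟨List.ofFn fun α => [PS.rk R.tag (bv 0 1) (bv (R.code α) 1) (fun _ => True)
    (fun _ => True) (bv_le _) (bv_le _) (adm_bv _ _ _) (adm_bv _ _ _),
    PS.rk ((sb (R.A α)).trans ρ) (R.a α) (bv 0 1) (fun _ => True) (fun p => Mem p P) (h.nrm α).le
      (bv_le _) (adm_bv _ _ _) (adm_mem _ _)], by simp, ?_, fun b hb => ?_⟩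
  · rw [opF_ofFn, E_ct]
    refine Finset.sum_congr rfl fun α _ => ?_
    rw [opP, opP, opP, Matrix.one_mul, PS.rk_op, PS.rk_op, em_rk1]
  · obtain ⟨α, rfl⟩ := List.mem_ofFn.1 hb
    exact ⟨R.A α, _, _, (h.sub α).1, (h.sub α).2, rfl, rfl, fun _ => trivial, fun _ => trivial,
      rg_sb_trans _ _, fun _ => trivial, fun _ h => h⟩

/-- encoding layer -/
lemma exists_enc {R : Rec Λ Rg q nt} (h : R.toFm.OK Ω B ε I O) (ρ : Λ ↪ Rg) (P : Pa × Pa) :
    ∃ L : List (List (PS Rg Pa q)), L.length = R.nb ∧ opF L = R.E ρ ∧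
      ∀ b ∈ L, ∃ A s1 s2, I ⊆ A ∧ A ⊆ O ∧ b = [s2, s1] ∧ s1.A = rg R.tag ∧ (∀ p, s1.In p) ∧
        (∀ p, s1.Out p) ∧ s2.A = A.map ρ ∧ (∀ p, s2.Out p) ∧ ∀ p, Mem p P → s2.In p := by
  refine ⟨List.ofFn fun α => [PS.rk ((sb (R.A α)).trans ρ) (bv 0 1) (R.a α) (fun p => Mem p P)
    (fun _ => True) (bv_le _) (h.nrm α).le (adm_mem _ _) (adm_bv _ _ _),
    PS.rk R.tag (bv (R.code α) 1) (bv 0 1) (fun _ => True)
      (fun _ => True) (bv_le _) (bv_le _) (adm_bv _ _ _) (adm_bv _ _ _)], by simp, ?_,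
    fun b hb => ?_⟩
  · rw [opF_ofFn, Rec.E]
    refine Finset.sum_congr rfl fun α _ => ?_
    rw [opP, opP, opP, Matrix.one_mul, PS.rk_op, PS.rk_op, em_rk1]
  · obtain ⟨α, rfl⟩ := List.mem_ofFn.1 hb
    exact ⟨R.A α, _, _, (h.sub α).1, (h.sub α).2, rfl, rfl, fun _ => trivial, fun _ => trivial,
      rg_sb_trans _ _, fun _ => trivial, fun _ h => h⟩

/-- patch layer -/
lemma exists_cel {R : Fm Λ q} (h : R.OK Ω B ε I O) (ρ : Λ ↪ Rg) (P P' : Pa × Pa) :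
    ∃ L : List (List (PS Rg Pa q)), L.length = R.nb ∧ opF L = em ρ R.G ∧
      ∀ b ∈ L, ∃ A s, I ⊆ A ∧ A ⊆ O ∧ b = [s] ∧ s.A = A.map ρ ∧ (∀ p, Mem p P → s.In p) ∧
        ∀ p, Mem p P' → s.Out p := by
  refine ⟨List.ofFn fun α => [PS.rk ((sb (R.A α)).trans ρ) (R.a α) (R.a α) (fun p => Mem p P)
    (fun p => Mem p P') (h.nrm α).le (h.nrm α).le (adm_mem _ _) (adm_mem _ _)], by simp, ?_,
    fun b hb => ?_⟩
  · rw [opF_ofFn, Fm.G, map_sum]
    refine Finset.sum_congr rfl fun α _ => ?_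
    rw [opP, opP, Matrix.one_mul, PS.rk_op, em_rk1]
  · obtain ⟨α, rfl⟩ := List.mem_ofFn.1 hb
    exact ⟨R.A α, _, (h.sub α).1, (h.sub α).2, rfl, rg_sb_trans _ _, fun _ h => h, fun _ h => h⟩

end layers

/-- steps without constraints -/
lemma feas_free {I : Finset Pa} {o : Rg → Pa} {l : List (PS Rg Pa q)}
    (h : ∀ s ∈ l, (∀ p, s.In p) ∧ (∀ p, s.Out p) ∧ ∀ r ∈ s.A, o r ∈ I) : Feas I o o l := by
  have key : Good I o l ∧ ∀ r, req I o r (o r) l := by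
    induction l with
    | nil => exact ⟨trivial, fun _ => rfl⟩
    | cons s l ih =>
      obtain ⟨h1, h2⟩ := ih fun s' hs' => h s' (by simp [hs'])
      obtain ⟨h3, h4, h5⟩ := h s (by simp)
      refine ⟨⟨fun r hr => ⟨o r, h4 _, h5 r hr, h2 r⟩, h1⟩, fun r => ?_⟩
      rw [req]
      split_ifs with hr
      exacts [⟨h3 _, h5 r hr⟩, h2 r]
  exact own key.1 key.2

lemma kt_sum_bv {κ : Type} [Fintype κ] [DecidableEq κ] (a a' : (κ → Fin q) → ℂ) :
    ∑ σ, kt (bv σ (a σ)) a' = kt a a' := by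
  ext τ υ
  simp only [Matrix.sum_apply, kt_apply, ← Finset.sum_mul]
  congr 1
  rw [Finset.sum_eq_single τ]
  · simp [bv]
  · intro σ _ h; simp [bv, Pi.single_eq_of_ne h.symm]
  · simp

theorem fin_step {Ω : N336.Vec Λ q} {B d : ℕ} {ε δ : ℝ} {Fr Fr' : Finset Rg} {I : Finset Pa}
    {o : Rg → Pa} {s s' : CSt Λ Pa} {x : N336.Vec Rg q} (hΩ : ‖Ω‖ = 1) (hε0 : 0 ≤ ε) (hε : ε < 1)
    (hF : Fr' ⊆ Fr) (hm : FinMove d I s s') (hx : Inv nt Ω B ε Fr o s δ x) :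
    ∃ g : Gate Rg Pa q, g.I = I ∧ g.Valid (B * q ^ d) 2 o o ∧
      Inv nt Ω B ε Fr' o s' (δ + ε) (act g.op x) := by
  obtain ⟨v, hv, hd, htg, hcI, hcol, hH⟩ := hm
  obtain ⟨D, h, hx1, hx2⟩ := hx
  have hR := h.ok v hv
  set R := D.rc v with hRd
  have na : ∀ α σ, ∑ τ, ‖bv σ (R.a α σ) τ‖ ^ 2 ≤ 1 := fun α σ => by
    rw [sum_bv, ← hR.nrm α]
    exact Finset.single_le_sum (f := fun σ => ‖R.a α σ‖ ^ 2) (fun _ _ => by positivity)
      (Finset.mem_univ σ)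
  let br : (Σ α : Fin R.nb, (R.A α → Fin q)) → List (PS Rg Pa q) := fun y =>
    [PS.rk R.tag (bv 0 1) (bv (R.code y.1) 1) (fun _ => True) (fun _ => True) (bv_le _) (bv_le _)
      (adm_bv _ _ _) (adm_bv _ _ _),
    PS.rk ((sb (R.A y.1)).trans D.ρ) (bv y.2 (R.a y.1 y.2)) (bv 0 1) (fun _ => True)
      (fun _ => True) (na _ _) (bv_le _) (adm_bv _ _ _) (adm_bv _ _ _)]
  have hop : opF (Finset.univ.toList.map br) = (D.E v)ᴴ := by
    rw [opF_toList, Dat.E, E_ct, Fintype.sum_sigma]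
    refine Finset.sum_congr rfl fun α _ => ?_
    rw [← em_rk1, ← kt_sum_bv (R.a α), map_sum, Finset.sum_mul]
    refine Finset.sum_congr rfl fun σ _ => ?_
    simp only [br]
    rw [opP, opP, opP, Matrix.one_mul, PS.rk_op, PS.rk_op]
  have hq : 1 ≤ q := Nat.pos_of_ne_zero (NeZero.ne q)
  have hlen : (Finset.univ.toList.map br).length = ∑ α, q ^ (R.A α).card := by simp
  have nM : ‖(D.E v)ᴴ‖ ≤ 1 := by rw [norm_ct]; exact h.norm_le hv
  obtain ⟨g, hg1, hg2, hg3⟩ := exists_gate (I := I) (o := o) (o' := o) (B := B * q ^ d) (ℓ := 2)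
    (Finset.univ.toList.map br)
    (by
      rw [hlen]
      have α : Fin R.nb := ⟨0, hR.nb_pos hΩ hε⟩
      exact (Nat.one_le_pow _ _ hq).trans (Finset.single_le_sum
        (f := fun α => q ^ (R.A α).card) (fun _ _ => Nat.zero_le _) (Finset.mem_univ α)))
    (by
      rw [hlen]
      refine (Finset.sum_le_card_nsmul _ _ (q ^ d) fun α _ => Nat.pow_le_pow_right hq
        ((Finset.card_le_card (hR.sub α).2).trans hd)).trans ?_
      simpa using Nat.mul_le_mul_right _ hR.nb_le)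
    (by
      intro b hb
      obtain ⟨y, -, rfl⟩ := List.mem_map.1 hb
      refine ⟨le_rfl, feas_free fun st hst => ?_⟩
      rcases List.mem_pair.1 hst with rfl | rfl
      · refine ⟨fun _ => trivial, fun _ => trivial, fun r hr => ?_⟩
        obtain ⟨j, rfl⟩ := mem_rg.1 hr
        rw [h.tg v hv]; exact htg
      · refine ⟨fun _ => trivial, fun _ => trivial, fun r hr => ?_⟩
        obtain ⟨z, rfl⟩ := mem_rg.1 hr
        change o (D.ρ z) ∈ I
        rw [h.col]; exact hcI _ ((hR.sub _).2 z.2))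
    (by rw [hop]; exact nM)
  refine ⟨g, hg1, hg2, ?_⟩
  have hs' : s'.H ⊆ s.H := hH ▸ Finset.erase_subset _ _
  have h' : D.OK Ω B ε Fr' o s' :=
    { ind := h.ind
      zF := h.zF.mono hF
      zT := fun w hw => h.zT w (hs' hw)
      nrm := h.nrm
      dF := h.dF.mono_right hF
      col := fun z => by rw [h.col, hcol]
      ok := fun w hw => h.ok w (hs' hw)
      tg := fun w hw => h.tg w (hs' hw)
      dT := fun w hw => h.dT w (hs' hw)
      dTF := fun w hw => (h.dTF w (hs' hw)).mono_right hF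
      pw := fun w hw w' hw' => h.pw w (hs' hw) w' (hs' hw') }
  obtain ⟨k1, k2⟩ := paint_an (rc' := D.rc) (old := {v}) (new := ∅) (C := 1) (c := 0) (Y := ∅) hΩ
    h h' (Finset.singleton_subset_iff.2 hv) (by rw [hH, Finset.union_empty, Finset.erase_eq])
    (Finset.disjoint_empty_right _) (fun _ _ => rfl) norm_one_le (Supp.one _)
    (fun _ _ => Finset.disjoint_empty_right _) (by simp)
  simp only [prodF_empty, prodF_singleton, map_one, Finset.card_singleton,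
    Nat.cast_one, one_mul, add_zero, Finset.card_empty, Nat.cast_zero, zero_mul] at k1 k2
  rw [hg3, hop]
  exact inv_of nM h' hx1 hx2 k1 (by linarith)

lemma mm {I : Finset Pa} {p : Pa} {P : Pa × Pa} (h : Mem p P) (h1 : P.1 ∈ I) (h2 : P.2 ∈ I) :
    p ∈ I := by rcases h with rfl | rfl <;> assumption

/-- owners for a branch of the paint move -/
theorem paint_own {I : Finset Pa} {o o' : Rg → Pa} {col col' : Λ → Pa} {ρ : Λ ↪ Rg}
    {old new : Finset (Hole Λ Pa)} {pr pr' : Hole Λ Pa → Pa × Pa} {cells : List (Patch Λ Pa)}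
    {T T' : Hole Λ Pa → Finset Rg} {bD bC bN : List (PS Rg Pa q)}
    (ho : ∀ z, o (ρ z) = col z) (ho' : ∀ z, o' (ρ z) = col' z)
    (hoo : ∀ r, r ∉ rg ρ → (∀ w ∈ new, r ∉ T' w) → o' r = o r)
    (hT : ∀ v ∈ old, Disjoint (T v) (rg ρ) ∧ (∀ w ∈ new, Disjoint (T v) (T' w)) ∧
      ∀ r ∈ T v, o r ∈ I)
    (hT' : ∀ w ∈ new, Disjoint (T' w) (rg ρ) ∧ ∀ r ∈ T' w, o r ∈ I ∧ o' r ∈ I)
    (p1 : ∀ κ ∈ cells, κ.pin.1 ∈ I ∧ κ.pin.2 ∈ I ∧ κ.pout.1 ∈ I ∧ κ.pout.2 ∈ I)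
    (p2 : ∀ w ∈ new, (pr' w).1 ∈ I ∧ (pr' w).2 ∈ I ∧ ∀ z ∈ w.O, col' z ∈ I)
    (p3 : ∀ v ∈ old, ∀ z ∈ v.O, col z ∈ I)
    (p4 : ∀ κ ∈ cells, ∀ z ∈ κ.O, (∀ v ∈ old, z ∉ v.I) → Mem (col z) κ.pin)
    (p5 : ∀ w ∈ new, ∀ z ∈ w.O, (∀ κ ∈ cells, z ∉ κ.I) → Mem (col z) (pr' w))
    (p6 : ∀ z, (∀ κ ∈ cells, z ∉ κ.I) → (∀ w ∈ new, z ∉ w.I) → col' z = col z)
    (p7 : ∀ v ∈ old, (∀ z ∈ v.O, ∃ κ ∈ cells, z ∈ κ.I) ∧
      ∀ κ ∈ cells, ¬ Disjoint v.O κ.O → Meet (pr v) κ.pin)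
    (p8 : ∀ κ ∈ cells, ∀ w ∈ new, ¬ Disjoint κ.O w.O → Meet κ.pout (pr' w))
    (p9 : ∀ κ ∈ cells, ∀ z ∈ κ.O, (∀ w ∈ new, z ∉ w.I) → Mem (col' z) κ.pout)
    (d1 : ∀ s ∈ bD, (∀ p, s.In p) ∧ ∃ v ∈ old, (s.A = T v ∧ ∀ p, s.Out p) ∨
      (s.A ⊆ v.O.map ρ ∧ ∀ p, Mem p (pr v) → s.Out p))
    (d2 : bD.Pairwise fun s s' => Disjoint s.A s'.A)
    (d3 : ∀ v ∈ old, ∃ s ∈ bD, v.I.map ρ ⊆ s.A)
    (c1 : ∀ s ∈ bC, ∃ κ ∈ cells, s.A ⊆ κ.O.map ρ ∧ (∀ p, Mem p κ.pin → s.In p) ∧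
      ∀ p, Mem p κ.pout → s.Out p)
    (c2 : bC.Pairwise fun s s' => ∀ r ∈ s.A, r ∈ s'.A → ∃ p, (s.Out p ∧ p ∈ I) ∧ s'.In p ∧ p ∈ I)
    (c3 : ∀ κ ∈ cells, ∃ s ∈ bC, κ.I.map ρ ⊆ s.A)
    (n1 : ∀ s ∈ bN, (∀ p, s.Out p) ∧ ∃ w ∈ new, (s.A = T' w ∧ ∀ p, s.In p) ∨
      (s.A ⊆ w.O.map ρ ∧ ∀ p, Mem p (pr' w) → s.In p))
    (n2 : bN.Pairwise fun s s' => Disjoint s.A s'.A)
    (n3 : ∀ w ∈ new, (∃ s ∈ bN, w.I.map ρ ⊆ s.A) ∧ ∃ s ∈ bN, T' w ⊆ s.A) :
    Feas I o o' (bD ++ (bC ++ bN)) := by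
  have vac : ∀ {l : List (PS Rg Pa q)}, (l.Pairwise fun s s' => Disjoint s.A s'.A) →
      l.Pairwise fun s s' => ∀ r ∈ s.A, r ∈ s'.A → ∃ p, (s.Out p ∧ p ∈ I) ∧ s'.In p ∧ p ∈ I :=
    fun h => h.imp fun h r h1 h2 => absurd h2 (Finset.disjoint_left.1 h h1)
  have nd : ∀ {z : Λ} {X Y : Finset Λ}, z ∈ X → z ∈ Y → ¬ Disjoint X Y := fun h1 h2 h =>
    Finset.disjoint_left.1 h h1 h2
  have eD : ∀ {z}, (∀ s ∈ bD, ρ z ∉ s.A) → ∀ v ∈ old, z ∉ v.I := fun h v hv hz => by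
    obtain ⟨s, hs, h1⟩ := d3 v hv
    exact h s hs (h1 (Finset.mem_map_of_mem ρ hz))
  have eC : ∀ {z}, (∀ s ∈ bC, ρ z ∉ s.A) → ∀ κ ∈ cells, z ∉ κ.I := fun h v hv hz => by
    obtain ⟨s, hs, h1⟩ := c3 v hv
    exact h s hs (h1 (Finset.mem_map_of_mem ρ hz))
  have eN : ∀ {z}, (∀ s ∈ bN, ρ z ∉ s.A) → ∀ w ∈ new, z ∉ w.I := fun h v hv hz => by
    obtain ⟨s, hs, h1⟩ := (n3 v hv).1
    exact h s hs (h1 (Finset.mem_map_of_mem ρ hz))
  have gN : Good I o' bN := by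
    rw [← List.append_nil bN]
    refine good_append (vac n2) (fun s hs r hr => ⟨o' r, ⟨(n1 s hs).1 _, ?_⟩, rfl⟩) trivial
    obtain ⟨w, hw, ⟨h1, -⟩ | ⟨h1, -⟩⟩ := (n1 s hs).2
    · exact ((hT' w hw).2 r (h1 ▸ hr)).2
    · obtain ⟨z, hz, rfl⟩ := Finset.mem_map.1 (h1 hr)
      rw [ho']; exact (p2 w hw).2.2 z hz
  have gC : Good I o' (bC ++ bN) := by
    refine good_append c2 (fun s hs r hr => ?_) gN
    obtain ⟨κ, hκ, h1, -, h2⟩ := c1 s hs
    obtain ⟨z, hz, rfl⟩ := Finset.mem_map.1 (h1 hr)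
    obtain ⟨-, -, i1, i2⟩ := p1 κ hκ
    refine req_of' (fun p => s.Out p ∧ p ∈ I) bN (fun s' hs' hr' => ?_) fun h => ?_
    · obtain ⟨w, hw, ⟨h3, -⟩ | ⟨h3, h4⟩⟩ := (n1 s' hs').2
      · exact absurd (apply_mem_rg ρ z) (Finset.disjoint_left.1 (hT' w hw).1 (h3 ▸ hr'))
      · obtain ⟨p, m1, m2⟩ := p8 κ hκ w hw (nd hz ((Finset.mem_map' ρ).1 (h3 hr')))
        exact ⟨p, ⟨h2 p m1, mm m1 i1 i2⟩, h4 p m2, mm m1 i1 i2⟩
    · have m := p9 κ hκ z hz (eN h)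
      rw [ho']
      exact ⟨h2 _ m, mm m i1 i2⟩
  have gD : Good I o' (bD ++ (bC ++ bN)) := by
    refine good_append (vac d2) (fun s hs r hr => ?_) gC
    obtain ⟨v, hv, ⟨h1, h2⟩ | ⟨h1, h2⟩⟩ := (d1 s hs).2
    · obtain ⟨t1, t2, t3⟩ := hT v hv
      have r1 : r ∉ rg ρ := Finset.disjoint_left.1 t1 (h1 ▸ hr)
      have r2 : ∀ w ∈ new, r ∉ T' w := fun w hw => Finset.disjoint_left.1 (t2 w hw) (h1 ▸ hr)
      refine req_of' (fun p => s.Out p ∧ p ∈ I) _ (fun s' hs' hr' => False.elim ?_) fun _ =>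
        ⟨h2 _, by rw [hoo r r1 r2]; exact t3 r (h1 ▸ hr)⟩
      rcases List.mem_append.1 hs' with hs' | hs'
      · obtain ⟨κ, -, h3, -⟩ := c1 s' hs'
        exact r1 (map_subset_rg _ _ (h3 hr'))
      · obtain ⟨w, hw, ⟨h3, -⟩ | ⟨h3, -⟩⟩ := (n1 s' hs').2
        · exact r2 w hw (h3 ▸ hr')
        · exact r1 (map_subset_rg _ _ (h3 hr'))
    · obtain ⟨z, hz, rfl⟩ := Finset.mem_map.1 (h1 hr)
      refine req_of (fun p => s.Out p ∧ p ∈ I) bC bN (fun s' hs' hr' => ?_) fun h => ?_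
      · obtain ⟨κ, hκ, h3, h4, -⟩ := c1 s' hs'
        obtain ⟨i1, i2, -⟩ := p1 κ hκ
        obtain ⟨p, m1, m2⟩ := (p7 v hv).2 κ hκ (nd hz ((Finset.mem_map' ρ).1 (h3 hr')))
        exact ⟨p, ⟨h2 p m1, mm m2 i1 i2⟩, h4 p m2, mm m2 i1 i2⟩
      · obtain ⟨κ, hκ, h3⟩ := (p7 v hv).1 z hz
        exact absurd h3 (eC h κ hκ)
  refine own gD fun r => ?_
  suffices H : ∃ p, p = o r ∧ req I o' r p (bD ++ (bC ++ bN)) by
    obtain ⟨p, rfl, h⟩ := H; exact h
  refine req_of (fun p => p = o r) bD _ (fun s hs hr => ⟨_, rfl, (d1 s hs).1 _, ?_⟩) fun hD =>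
    req_of (fun p => p = o r) bC _ (fun s hs hr => ⟨_, rfl, ?_⟩) fun hC =>
      req_of' (fun p => p = o r) bN (fun s hs hr => ⟨_, rfl, ?_⟩) fun hN => ?_
  · obtain ⟨v, hv, ⟨h1, -⟩ | ⟨h1, -⟩⟩ := (d1 s hs).2
    · exact (hT v hv).2.2 r (h1 ▸ hr)
    · obtain ⟨z, hz, rfl⟩ := Finset.mem_map.1 (h1 hr)
      rw [ho]; exact p3 v hv z hz
  · obtain ⟨κ, hκ, h1, h2, -⟩ := c1 s hs
    obtain ⟨z, hz, rfl⟩ := Finset.mem_map.1 (h1 hr)
    obtain ⟨i1, i2, -⟩ := p1 κ hκ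
    have m := p4 κ hκ z hz (eD hD)
    rw [ho]
    exact ⟨h2 _ m, mm m i1 i2⟩
  · obtain ⟨w, hw, ⟨h1, h2⟩ | ⟨h1, h2⟩⟩ := (n1 s hs).2
    · exact ⟨h2 _, ((hT' w hw).2 r (h1 ▸ hr)).1⟩
    · obtain ⟨z, hz, rfl⟩ := Finset.mem_map.1 (h1 hr)
      have m := p5 w hw z hz (eC hC)
      rw [ho]
      exact ⟨h2 _ m, mm m (p2 w hw).1 (p2 w hw).2.1⟩
  · by_cases hr : r ∈ rg ρ
    · obtain ⟨z, rfl⟩ := mem_rg.1 hr
      rw [ho, ho', p6 z (eC hC) (eN hN)]
    · refine hoo r hr fun w hw h1 => ?_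
      obtain ⟨s, hs, h2⟩ := (n3 w hw).2
      exact hN s hs (h2 h1)

end Crest.Agent.N336.P.Snd
end

-- ▼ part N336/P/Sound/Paint

/-!
# Row 336, soundness of plans: the paint move (helper29)
-/

set_option autoImplicit false
set_option linter.unusedSectionVars false

open Matrix Finset
open scoped Matrix.Norms.L2Operator

namespace Crest.Agent.N336.P.Snd

open Crest.MathPhysics.LatticeSpin Crest.Agent.N336.Q

variable {Λ Rg Pa : Type} [Fintype Λ] [DecidableEq Λ] [Fintype Rg] [DecidableEq Rg]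
  [DecidableEq Pa] {q nt : ℕ} [NeZero q]

/-- new records on fresh tags -/
lemma exists_rec {Ω : N336.Vec Λ q} {B ℓ : ℕ} {ε : ℝ} (hB : B ≤ q ^ nt)
    (f : Fin ℓ × Fin nt ↪ Rg) (new : Finset (Hole Λ Pa)) (hn : new.card ≤ ℓ)
    (hP : ∀ w ∈ new, PatchFam Ω B ε w.I w.O) (rc : Hole Λ Pa → Rec Λ Rg q nt) :
    ∃ rc' : Hole Λ Pa → Rec Λ Rg q nt, (∀ v, v ∉ new → rc' v = rc v) ∧
      (∀ w ∈ new, (rc' w).toFm.OK Ω B ε w.I w.O ∧ rg (rc' w).tag ⊆ rg f) ∧
      ∀ w ∈ new, ∀ w' ∈ new, w ≠ w' → Disjoint (rg (rc' w).tag) (rg (rc' w').tag) := by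
  obtain ⟨idx⟩ : Nonempty (new ↪ Fin ℓ) :=
    Function.Embedding.nonempty_of_card_le (by simpa using hn)
  have h1 : ∀ w : new, ∃ R : Rec Λ Rg q nt, R.toFm.OK Ω B ε w.1.I w.1.O ∧
      ∀ j, R.tag j = f (idx w, j) := by
    intro w
    obtain ⟨F, hF⟩ := exists_fm (hP w.1 w.2)
    obtain ⟨code⟩ : Nonempty (Fin F.nb ↪ (Fin nt → Fin q)) :=
      Function.Embedding.nonempty_of_card_le (by simpa using hF.nb_le.trans hB)
    exact ⟨⟨F, (Function.Embedding.sectR (idx w) (Fin nt)).trans f, code⟩, hF, fun _ => rfl⟩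
  choose R hR using h1
  refine ⟨fun v => if h : v ∈ new then R ⟨v, h⟩ else rc v, fun v hv => dif_neg hv,
    fun w hw => ?_, fun w hw w' hw' hne => ?_⟩
  · simp only [dif_pos hw]
    refine ⟨(hR ⟨w, hw⟩).1, fun r hr => ?_⟩
    obtain ⟨j, rfl⟩ := mem_rg.1 hr
    rw [(hR _).2]; exact apply_mem_rg _ _
  · simp only [dif_pos hw, dif_pos hw']
    rw [Finset.disjoint_left]
    intro r h1 h2
    obtain ⟨j, rfl⟩ := mem_rg.1 h1
    obtain ⟨j', e⟩ := mem_rg.1 h2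
    rw [(hR _).2, (hR _).2] at e
    exact hne (congrArg Subtype.val (idx.injective (congrArg Prod.fst (f.injective e)))).symm

/-- new owners -/
lemma exists_own (ρ : Λ ↪ Rg) (col' : Λ → Pa) (o : Rg → Pa) (new : Finset (Hole Λ Pa))
    (T' : Hole Λ Pa → Finset Rg) (h1 : ∀ w ∈ new, Disjoint (T' w) (rg ρ))
    (h2 : ∀ w ∈ new, ∀ w' ∈ new, w ≠ w' → Disjoint (T' w) (T' w')) :
    ∃ o' : Rg → Pa, (∀ z, o' (ρ z) = col' z) ∧ (∀ w ∈ new, ∀ r ∈ T' w, o' r = w.tg) ∧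
      ∀ r, r ∉ rg ρ → (∀ w ∈ new, r ∉ T' w) → o' r = o r := by
  classical
  refine ⟨fun r => if h : ∃ z, ρ z = r then col' h.choose else
    if h' : ∃ w ∈ new, r ∈ T' w then h'.choose.tg else o r, fun z => ?_, fun w hw r hr => ?_,
    fun r hr hr' => ?_⟩
  · have h : ∃ z', ρ z' = ρ z := ⟨z, rfl⟩
    simp only [dif_pos h, ρ.injective h.choose_spec]
  · have h : ¬ ∃ z, ρ z = r := fun h => Finset.disjoint_left.1 (h1 w hw) hr (mem_rg.2 h)
    have h' : ∃ w ∈ new, r ∈ T' w := ⟨w, hw, hr⟩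
    simp only [dif_neg h, dif_pos h']
    by_contra h3
    exact Finset.disjoint_left.1 (h2 _ h'.choose_spec.1 w hw fun e => h3 (by rw [e]))
      h'.choose_spec.2 hr
  · have h : ¬ ∃ z, ρ z = r := fun h => hr (mem_rg.2 h)
    have h' : ¬ ∃ w ∈ new, r ∈ T' w := fun ⟨w, hw, h⟩ => hr' w hw h
    simp only [dif_neg h, dif_neg h']

theorem paint_step {Ω : N336.Vec Λ q} {B ℓ : ℕ} {ε δ : ℝ} {Fr Fr' : Finset Rg} {I : Finset Pa}
    {o : Rg → Pa} {s s' : CSt Λ Pa} {x : N336.Vec Rg q} (hΩ : ‖Ω‖ = 1) (hε0 : 0 ≤ ε) (hε : ε < 1)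
    (hB1 : 1 ≤ B) (hB : B ≤ q ^ nt) (f : Fin ℓ × Fin nt ↪ Rg)
    (hF : Fr' ⊆ Fr) (hf : rg f ⊆ Fr) (hf' : Disjoint (rg f) Fr')
    (ho : I.Nonempty → ∀ y, o (f y) ∈ I) (hm : PaintMove (PatchFam Ω B ε) ℓ I s s')
    (hx : Inv nt Ω B ε Fr o s δ x) :
    ∃ (g : Gate Rg Pa q) (o' : Rg → Pa), g.I = I ∧ g.Valid (B ^ ℓ) (2 * ℓ) o o' ∧
      (∀ r ∈ Fr', o' r = o r) ∧ Inv nt Ω B ε Fr' o' s' (δ + ℓ * ε) (act g.op x) := by
  obtain ⟨old, new, pr, pr', cells, hold, hH, hd, hℓ, q1, q2, q3, q4, q5, p4, p5, p6, p7, pc, p8,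
    p9⟩ := hm
  obtain ⟨D, h, hx1, hx2⟩ := hx
  obtain ⟨rc', hrc, hnew, hpw⟩ := exists_rec hB f new (by omega) (fun w hw => (q2 w hw).1) D.rc
  have tF : ∀ w ∈ new, rg (rc' w).tag ⊆ Fr := fun w hw => (hnew w hw).2.trans hf
  have tρ : ∀ w ∈ new, Disjoint (rg (rc' w).tag) (rg D.ρ) := fun w hw =>
    h.dF.symm.mono_left (tF w hw)
  obtain ⟨o', o1, o2, o3⟩ := exists_own D.ρ s'.col o new (fun w => rg (rc' w).tag) tρ hpw
  have hst : ∀ v ∈ s.H \ old, v ∈ s.H ∧ rc' v = D.rc v := fun v hv =>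
    ⟨(Finset.mem_sdiff.1 hv).1, hrc v (Finset.disjoint_left.1 hd hv)⟩
  have hc : ∀ {P : Hole Λ Pa → Prop}, (∀ v ∈ s.H \ old, P v) → (∀ v ∈ new, P v) →
      ∀ v ∈ s'.H, P v := fun h1 h2 v hv => by
    rw [hH] at hv
    exact (Finset.mem_union.1 hv).elim (h1 v) (h2 v)
  have tT : ∀ v ∈ s.H, ∀ w ∈ new, Disjoint (rg (D.rc v).tag) (rg (rc' w).tag) := fun v hv w hw =>
    (h.dTF v hv).mono_right (tF w hw)
  set D' : Dat Λ Rg Pa q nt := ⟨D.ρ, D.W, rc'⟩ with hD'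
  have h' : D'.OK Ω B ε Fr' o' s' :=
    { ind := h.ind
      zF := h.zF.mono hF
      zT := hc (fun v hv => by
          change Zr (rg (rc' v).tag) D.W
          rw [(hst v hv).2]; exact h.zT v (hst v hv).1) fun w hw => h.zF.mono (tF w hw)
      nrm := h.nrm
      dF := h.dF.mono_right hF
      col := o1
      ok := hc (fun v hv => by
          change (rc' v).toFm.OK _ _ _ _ _
          rw [(hst v hv).2]; exact h.ok v (hst v hv).1) fun w hw => (hnew w hw).1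
      tg := hc (fun v hv j => by
          change o' ((rc' v).tag j) = _
          rw [(hst v hv).2, o3 _ (Finset.disjoint_left.1 (h.dT v (hst v hv).1) (apply_mem_rg _ j))
            fun w hw => Finset.disjoint_left.1 (tT v (hst v hv).1 w hw) (apply_mem_rg _ j),
            h.tg v (hst v hv).1]) fun w hw j => o2 w hw _ (apply_mem_rg _ j)
      dT := hc (fun v hv => by
          change Disjoint (rg (rc' v).tag) (rg D.ρ)
          rw [(hst v hv).2]; exact h.dT v (hst v hv).1) tρ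
      dTF := hc (fun v hv => by
          change Disjoint (rg (rc' v).tag) Fr'
          rw [(hst v hv).2]; exact (h.dTF v (hst v hv).1).mono_right hF)
        fun w hw => hf'.mono_left (hnew w hw).2
      pw := hc
        (fun v hv => hc
          (fun w hw hne => by
            change _ ∧ Disjoint (rg (rc' v).tag) (rg (rc' w).tag)
            rw [(hst v hv).2, (hst w hw).2]; exact h.pw v (hst v hv).1 w (hst w hw).1 hne)
          fun w hw _ => ⟨(q4 v hv).2 w hw, by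
            change Disjoint (rg (rc' v).tag) (rg (rc' w).tag)
            rw [(hst v hv).2]; exact tT v (hst v hv).1 w hw⟩)
        fun v hv => hc
          (fun w hw _ => ⟨((q4 w hw).2 v hv).symm, by
            change Disjoint (rg (rc' v).tag) (rg (rc' w).tag)
            rw [(hst w hw).2]; exact (tT w (hst w hw).1 v hv).symm⟩)
          fun w hw hne => ⟨q5 v hv w hw hne, hpw v hv w hw hne⟩ }
  have hnw : new ⊆ s'.H := hH ▸ Finset.subset_union_right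
  -- the layers
  have : Nonempty (Fm Λ q) := ⟨⟨0, fun α => α.elim0, fun α => α.elim0⟩⟩
  choose! Fc hFc using fun κ (hκ : κ ∈ cells) => exists_fm (q1 κ hκ).1
  choose! LD lD oD sD using fun v (hv : v ∈ old) => exists_dec (h.ok v (hold hv)) D.ρ (pr v)
  choose! LC lC oC sC using fun κ (hκ : κ ∈ cells) => exists_cel (hFc κ hκ) D.ρ κ.pin κ.pout
  choose! LN lN oN sN using fun w (hw : w ∈ new) => exists_enc (hnew w hw).1 D.ρ (pr' w)
  set C : N336.Op Λ q := (cells.map fun κ => (Fc κ).G).reverse.prod with hC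
  have mC : ∀ M ∈ (cells.map fun κ => (Fc κ).G).reverse, ∃ κ ∈ cells, M = (Fc κ).G := by
    intro M hM
    obtain ⟨κ, hκ, rfl⟩ := List.mem_map.1 (List.mem_reverse.1 hM)
    exact ⟨κ, hκ, rfl⟩
  have nG : ∀ M ∈ (cells.map fun κ => (Fc κ).G).reverse, ‖M‖ ≤ 1 := fun M hM => by
    obtain ⟨κ, hκ, rfl⟩ := mC M hM
    exact (hFc κ hκ).norm_G
  have nC : ‖C‖ ≤ 1 := list_prod_le_one nG
  have cC : ‖ap C Ω - Ω‖ ≤ cells.length * ε := by
    have := close_prod (y := Ω) (ε := ε) nG fun M hM => by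
      obtain ⟨κ, hκ, rfl⟩ := mC M hM
      exact (hFc κ hκ).close
    rwa [List.length_reverse, List.length_map] at this
  let Y : Finset Λ := Finset.univ.filter fun z => ∃ κ ∈ cells, z ∈ κ.O
  have sC' : Sp Y C := Supp.list_prod fun M hM => by
    obtain ⟨κ, hκ, rfl⟩ := mC M hM
    exact (hFc κ hκ).sp.mono fun z hz => Finset.mem_filter.2 ⟨Finset.mem_univ _, κ, hκ, hz⟩
  obtain ⟨k1, k2⟩ := paint_an hΩ h h' hold hH hd (fun v hv => (hst v hv).2) nC sC'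
    (fun v hv => Finset.disjoint_left.2 fun z hz hz' => by
      obtain ⟨κ, hκ, h1⟩ := (Finset.mem_filter.1 hz').2
      exact Finset.disjoint_left.1 ((q4 v hv).1 κ hκ) hz h1) cC
  set Fam := sq2 (sqA LD old.toList) (sq2 (sqA LC cells) (sqA LN new.toList.reverse)) with hFam
  have hop : opF Fam = prodF new D'.E * em D.ρ C * (prodF old D.E)ᴴ := by
    rw [hFam, opF_sq2, opF_sq2, opF_sqA, opF_sqA, opF_sqA, List.map_reverse, List.reverse_reverse,
      prodF, prodF, conjTranspose_list_prod, hC, map_list_prod, List.map_reverse, List.map_map,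
      List.map_map]
    congr 3
    · exact List.map_congr_left fun w hw => oN w (Finset.mem_toList.1 hw)
    · exact congrArg _ (List.map_congr_left fun κ hκ => oC κ hκ)
    · exact List.map_congr_left fun v hv => oD v (Finset.mem_toList.1 hv)
  have nM : ‖prodF new D'.E * em D.ρ C * (prodF old D.E)ᴴ‖ ≤ 1 :=
    mul_le_one' (mul_le_one' (h'.norm_prod hnw) ((norm_em_le _ _).trans nC))
      (by rw [norm_ct]; exact h.norm_prod hold)
  obtain ⟨a1, a2⟩ := length_sqA LD old.toList (B := B) fun v hv => by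
    have hv' := Finset.mem_toList.1 hv
    rw [lD v hv']; exact ⟨(h.ok v (hold hv')).nb_pos hΩ hε, (h.ok v (hold hv')).nb_le⟩
  obtain ⟨b1, b2⟩ := length_sqA LC cells (B := B) fun κ hκ => by
    rw [lC κ hκ]; exact ⟨(hFc κ hκ).nb_pos hΩ hε, (hFc κ hκ).nb_le⟩
  obtain ⟨c1, c2⟩ := length_sqA LN new.toList.reverse (B := B) fun w hw => by
    have hw' := Finset.mem_toList.1 (List.mem_reverse.1 hw)
    rw [lN w hw']; exact ⟨(hnew w hw').1.nb_pos hΩ hε, (hnew w hw').1.nb_le⟩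
  rw [Finset.length_toList] at a2
  rw [List.length_reverse, Finset.length_toList] at c2
  -- structure of the branches
  have uD : ∀ v ∈ old, ∀ b ∈ LD v, ∀ st ∈ b, st.A ⊆ D.S v := fun v hv b hb st hst => by
    obtain ⟨A, s1, s2, -, i2, rfl, e1, -, -, e2, -⟩ := sD v hv b hb
    rcases List.mem_pair.1 hst with rfl | rfl
    · rw [e1]; exact Finset.subset_union_left
    · rw [e2]; exact (Finset.map_subset_map.2 i2).trans Finset.subset_union_right
  have uN : ∀ w ∈ new, ∀ b ∈ LN w, ∀ st ∈ b, st.A ⊆ D'.S w := fun w hw b hb st hst => by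
    obtain ⟨A, s1, s2, -, i2, rfl, e1, -, -, e2, -⟩ := sN w hw b hb
    rcases List.mem_pair.1 hst with rfl | rfl
    · rw [e2]; exact (Finset.map_subset_map.2 i2).trans Finset.subset_union_right
    · rw [e1]; exact Finset.subset_union_left
  have SD := sqA_spec LD (fun s s' => Disjoint s.A s'.A) 2 old.toList
    (fun v hv b hb => by
      have hv' := Finset.mem_toList.1 hv
      obtain ⟨A, s1, s2, -, -, rfl, e1, -, -, e2, -⟩ := sD v hv' b hb
      refine ⟨le_rfl, List.pairwise_pair.2 ?_⟩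
      rw [e1, e2]; exact disjoint_map_rg (h.dT v (hold hv')))
    (pairwise_toList fun v hv w hw hne b hb b' hb' st hst st' hst' =>
      (h.disj (hold hv) (hold hw) hne).mono (uD v hv b hb st hst) (uD w hw b' hb' st' hst'))
  have SN := sqA_spec LN (fun s s' => Disjoint s.A s'.A) 2 new.toList.reverse
    (fun w hw b hb => by
      have hw' := Finset.mem_toList.1 (List.mem_reverse.1 hw)
      obtain ⟨A, s1, s2, -, -, rfl, e1, -, -, e2, -⟩ := sN w hw' b hb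
      refine ⟨le_rfl, List.pairwise_pair.2 ?_⟩
      rw [e1, e2]; exact (disjoint_map_rg (tρ w hw')).symm)
    (List.pairwise_reverse.2 (pairwise_toList fun v hv w hw hne b hb b' hb' st hst st' hst' =>
      (h'.disj (hnw hw) (hnw hv) hne.symm).mono (uN w hw b hb st hst) (uN v hv b' hb' st' hst')))
  have SC := sqA_spec LC
    (fun s s' => ∀ r ∈ s.A, r ∈ s'.A → ∃ p, (s.Out p ∧ p ∈ I) ∧ s'.In p ∧ p ∈ I) 1 cells
    (fun κ hκ b hb => by
      obtain ⟨A, s1, -, -, rfl, -⟩ := sC κ hκ b hb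
      exact ⟨le_rfl, List.pairwise_singleton _ _⟩)
    (pc.imp_of_mem fun {κ κ'} hκ hκ' hmeet b hb b' hb' st hst st' hst' r hr hr' => by
      obtain ⟨A, s1, -, i2, rfl, e1, -, e2⟩ := sC κ hκ b hb
      obtain ⟨A', s2, -, i2', rfl, e1', e2', -⟩ := sC κ' hκ' b' hb'
      obtain rfl := List.mem_singleton.1 hst
      obtain rfl := List.mem_singleton.1 hst'
      rw [e1] at hr
      rw [e1'] at hr'
      obtain ⟨z, hz, rfl⟩ := Finset.mem_map.1 hr
      obtain ⟨p, m1, m2⟩ := hmeet fun hdj =>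
        Finset.disjoint_left.1 hdj (i2 hz) (i2' ((Finset.mem_map' _).1 hr'))
      have := mm m1 (q1 κ hκ).2.2.2.1 (q1 κ hκ).2.2.2.2
      exact ⟨p, ⟨e2 p m1, this⟩, e2' p m2, this⟩)
  obtain ⟨g, hg1, hg2, hg3⟩ := exists_gate (I := I) (o := o) (o' := o') (B := B ^ ℓ) (ℓ := 2 * ℓ)
    Fam (by rw [hFam, length_sq2, length_sq2]; exact Nat.mul_le_mul a1 (Nat.mul_le_mul b1 c1))
    (by
      rw [hFam, length_sq2, length_sq2]
      refine (Nat.mul_le_mul a2 (Nat.mul_le_mul b2 c2)).trans ?_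
      rw [← pow_add, ← pow_add]
      exact Nat.pow_le_pow_right hB1 (by omega))
    (by
      intro b hb
      obtain ⟨bD, hbD, b', hb', rfl⟩ := mem_sq2.1 hb
      obtain ⟨bC, hbC, bN, hbN, rfl⟩ := mem_sq2.1 hb'
      obtain ⟨d0, d2, d1, d3⟩ := SD bD hbD
      obtain ⟨e0, e2, e1, e3⟩ := SC bC hbC
      obtain ⟨n0, n2, n1, n3⟩ := SN bN hbN
      rw [Finset.length_toList] at d0
      rw [List.length_reverse, Finset.length_toList] at n0
      refine ⟨by simp only [List.length_append]; omega, paint_own (pr := pr) (pr' := pr')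
        (T := fun v => rg (D.rc v).tag) (T' := fun w => rg (rc' w).tag) h.col o1 o3
        (fun v hv => ⟨h.dT v (hold hv), tT v (hold hv), fun r hr => ?_⟩)
        (fun w hw => ⟨tρ w hw, fun r hr => ⟨?_, ?_⟩⟩) (fun κ hκ => (q1 κ hκ).2)
        (fun w hw => ⟨(q2 w hw).2.1, (q2 w hw).2.2.1, (q2 w hw).2.2.2.2⟩)
        (fun v hv => (q3 v hv).2.2.2) p4 p5 p6 p7 p8 p9 (fun st hst => ?_) d2 (fun v hv => ?_)
        (fun st hst => ?_) e2 (fun κ hκ => ?_) (fun st hst => ?_) n2 fun w hw => ?_⟩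
      · obtain ⟨j, rfl⟩ := mem_rg.1 hr
        rw [h.tg v (hold hv)]; exact (q3 v hv).2.2.1
      · obtain ⟨y, rfl⟩ := mem_rg.1 ((hnew w hw).2 hr)
        exact ho ⟨_, (q2 w hw).2.1⟩ y
      · rw [o2 w hw r hr]; exact (q2 w hw).2.2.2.1
      · obtain ⟨v, hv, b, hb, hst⟩ := d1 st hst
        have hv' := Finset.mem_toList.1 hv
        obtain ⟨A, s1, s2, -, i2, rfl, f1, f2, f3, f4, f5, f6⟩ := sD v hv' b hb
        rcases List.mem_pair.1 hst with rfl | rfl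
        · exact ⟨f2, v, hv', Or.inl ⟨f1, f3⟩⟩
        · exact ⟨f5, v, hv', Or.inr ⟨f4 ▸ Finset.map_subset_map.2 i2, f6⟩⟩
      · obtain ⟨b, hb, hsub⟩ := d3 v (Finset.mem_toList.2 hv)
        obtain ⟨A, s1, s2, i1, -, rfl, -, -, -, f4, -⟩ := sD v hv b hb
        exact ⟨s2, hsub (by simp), f4 ▸ Finset.map_subset_map.2 i1⟩
      · obtain ⟨κ, hκ, b, hb, hst⟩ := e1 st hst
        obtain ⟨A, s1, -, i2, rfl, f1, f2, f3⟩ := sC κ hκ b hb
        obtain rfl := List.mem_singleton.1 hst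
        exact ⟨κ, hκ, f1 ▸ Finset.map_subset_map.2 i2, f2, f3⟩
      · obtain ⟨b, hb, hsub⟩ := e3 κ hκ
        obtain ⟨A, s1, i1, -, rfl, f1, -⟩ := sC κ hκ b hb
        exact ⟨s1, hsub (by simp), f1 ▸ Finset.map_subset_map.2 i1⟩
      · obtain ⟨w, hw, b, hb, hst⟩ := n1 st hst
        have hw' := Finset.mem_toList.1 (List.mem_reverse.1 hw)
        obtain ⟨A, s1, s2, -, i2, rfl, f1, f2, f3, f4, f5, f6⟩ := sN w hw' b hb
        rcases List.mem_pair.1 hst with rfl | rfl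
        · exact ⟨f5, w, hw', Or.inr ⟨f4 ▸ Finset.map_subset_map.2 i2, f6⟩⟩
        · exact ⟨f3, w, hw', Or.inl ⟨f1, f2⟩⟩
      · obtain ⟨b, hb, hsub⟩ := n3 w (List.mem_reverse.2 (Finset.mem_toList.2 hw))
        obtain ⟨A, s1, s2, i1, -, rfl, f1, -, -, f4, -⟩ := sN w hw b hb
        exact ⟨⟨s2, hsub (by simp), f4 ▸ Finset.map_subset_map.2 i1⟩,
          s1, hsub (by simp), f1.ge⟩)
    (by rw [hop]; exact nM)
  refine ⟨g, o', hg1, hg2, fun r hr => o3 r (Finset.disjoint_right.1 h'.dF hr) fun w hw =>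
    Finset.disjoint_right.1 (h'.dTF w (hnw hw)) hr, ?_⟩
  have hℓ' : (old.card : ℝ) + cells.length + new.card ≤ ℓ := by exact_mod_cast hℓ
  rw [hg3, hop]
  refine inv_of nM h' hx1 hx2 (k1.trans ?_) (k2.trans ?_)
  · nlinarith [Nat.cast_nonneg (α := ℝ) new.card]
  · nlinarith [Nat.cast_nonneg (α := ℝ) old.card, Nat.cast_nonneg (α := ℝ) cells.length]

end Crest.Agent.N336.P.Snd
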